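import Mathlib

/-!
# P150: Sherrington-Kirkpatrick heat-bath dynamics
-/

open MeasureTheory ProbabilityTheory

namespace Vale.Agent.P150

/-- The spin value `±1` of a Boolean. -/
noncomputable def spin (b : Bool) : ℝ := if b then 1 else -1

/-- Unordered pairs of sites. -/
abbrev Edge (n : ℕ) : Type := {p : Fin n × Fin n // p.1 < p.2}

/-- Independent standard Gaussian couplings. -/
noncomputable def disorder (n : ℕ) : Measure (Edge n → ℝ) := Measure.pi fun _ => gaussianReal 0 1

/-- `n^{-1/2} ∑_{i<j} g_{ij} x_i x_j`. -/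
noncomputable def energy (n : ℕ) (g : Edge n → ℝ) (x : Fin n → Bool) : ℝ :=
  (∑ e : Edge n, g e * (spin (x e.1.1) * spin (x e.1.2))) / √n

/-- The Gibbs weight of `x`. -/
noncomputable def gibbs (n : ℕ) (β : ℝ) (g : Edge n → ℝ) (x : Fin n → Bool) : ℝ :=
  Real.exp (β * energy n g x) / ∑ y, Real.exp (β * energy n g y)

/-- The matrix of conditional expectation given all spins but the `i`-th. -/
noncomputable def condMat (n : ℕ) (β : ℝ) (g : Edge n → ℝ) (i : Fin n) :
    Matrix (Fin n → Bool) (Fin n → Bool) ℝ := fun x y =>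
  if ∀ j, j ≠ i → y j = x j then
    gibbs n β g y
      / (gibbs n β g (Function.update x i true) + gibbs n β g (Function.update x i false))
  else 0

/-- The generator `∑ i (Q_i - I)`. -/
noncomputable def generator (n : ℕ) (β : ℝ) (g : Edge n → ℝ) :
    Matrix (Fin n → Bool) (Fin n → Bool) ℝ :=
  ∑ i, (condMat n β g i - 1)

/-- The transition matrix at time `t`. -/
noncomputable def kernel (n : ℕ) (β : ℝ) (g : Edge n → ℝ) (t : ℝ) :
    Matrix (Fin n → Bool) (Fin n → Bool) ℝ :=
  NormedSpace.exp (t • generator n β g)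

/-- Total variation distance between the law at time `t` from `x` and the Gibbs measure. -/
noncomputable def tvDist (n : ℕ) (β : ℝ) (g : Edge n → ℝ) (t : ℝ) (x : Fin n → Bool) : ℝ :=
  (∑ y, |kernel n β g t x y - gibbs n β g y|) / 2

/-- The Dirichlet form `⟨f, -L f⟩` in `L²` of the Gibbs measure. -/
noncomputable def dirichlet (n : ℕ) (β : ℝ) (g : Edge n → ℝ) (f : (Fin n → Bool) → ℝ) : ℝ :=
  -∑ x, gibbs n β g x * f x * (generator n β g).mulVec f x

/-- The variance under the Gibbs measure. -/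
noncomputable def gibbsVar (n : ℕ) (β : ℝ) (g : Edge n → ℝ) (f : (Fin n → Bool) → ℝ) : ℝ :=
  ∑ x, gibbs n β g x * f x ^ 2 - (∑ x, gibbs n β g x * f x) ^ 2

/-- The spectral gap, as the infimum of Rayleigh quotients. -/
noncomputable def gap (n : ℕ) (β : ℝ) (g : Edge n → ℝ) : ℝ :=
  ⨅ f : {f : (Fin n → Bool) → ℝ // 0 < gibbsVar n β g f},
    dirichlet n β g f.1 / gibbsVar n β g f.1

end Vale.Agent.P150
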