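import Vale.Agent.P150.Defs

/-!
# P150: Gaussian integration by parts for finite Gibbs measures
-/

open MeasureTheory ProbabilityTheory Real

namespace Vale.Agent.P150

/-- The standard normal law. -/
noncomputable def std : Measure ℝ := gaussianReal 0 1

/-- Independent standard normal variables. -/
noncomputable def stdPi (κ : Type*) [Fintype κ] : Measure (κ → ℝ) := Measure.pi fun _ => std

instance : IsProbabilityMeasure std := by unfold std; infer_instance

instance (κ : Type*) [Fintype κ] : IsProbabilityMeasure (stdPi κ) := by unfold stdPi; infer_instance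

theorem integrable_pdf_mul {φ : ℝ → ℝ} (h : Integrable φ std) :
    Integrable fun x => φ x * gaussianPDFReal 0 1 x := by
  rw [std, gaussianReal_of_var_ne_zero _ one_ne_zero] at h
  rw [integrable_withDensity_iff_integrable_smul' (measurable_gaussianPDF 0 1)
    (Filter.Eventually.of_forall fun x => gaussianPDF_lt_top)] at h
  refine h.congr (Filter.Eventually.of_forall fun x => ?_)
  simp [toReal_gaussianPDF, mul_comm]

theorem hasDerivAt_pdf (x : ℝ) :
    HasDerivAt (gaussianPDFReal 0 1) (-(x * gaussianPDFReal 0 1 x)) x := by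
  have e : gaussianPDFReal 0 1 = fun y => (√(2 * π))⁻¹ * exp (-y ^ 2 / 2) := by
    funext y; simp [gaussianPDFReal]
  rw [e]
  refine (((hasDerivAt_pow 2 x).neg.div_const 2).exp.const_mul (√(2 * π))⁻¹).congr_deriv ?_
  simp; ring

theorem stein {φ φ' : ℝ → ℝ} (hd : ∀ x, HasDerivAt φ (φ' x) x) (h1 : Integrable φ std)
    (h2 : Integrable φ' std) (h3 : Integrable (fun x => x * φ x) std) :
    ∫ x, x * φ x ∂std = ∫ x, φ' x ∂std := by
  simp only [std]
  rw [integral_gaussianReal_eq_integral_smul one_ne_zero, integral_gaussianReal_eq_integral_smul one_ne_zero]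
  have huv' : Integrable (φ * fun x => -(x * gaussianPDFReal 0 1 x)) :=
    ((integrable_pdf_mul h3).neg).congr (Filter.Eventually.of_forall fun x => by simp; ring)
  have := integral_mul_deriv_eq_deriv_mul_of_integrable (u := φ) (u' := φ')
    (v := gaussianPDFReal 0 1) (v' := fun x => -(x * gaussianPDFReal 0 1 x))
    (fun x _ => hd x) (fun x _ => hasDerivAt_pdf x) huv' (integrable_pdf_mul h2) (integrable_pdf_mul h1)
  calc ∫ x, gaussianPDFReal 0 1 x • (x * φ x) = -∫ x, φ x * -(x * gaussianPDFReal 0 1 x) := by
        rw [← integral_neg]; refine integral_congr_ae (Filter.Eventually.of_forall fun x => ?_)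
        simp; ring
    _ = ∫ x, φ' x * gaussianPDFReal 0 1 x := by rw [this, neg_neg]
    _ = _ := by refine integral_congr_ae (Filter.Eventually.of_forall fun x => ?_); simp; ring

theorem integrable_id_std : Integrable (fun x : ℝ => x) std := by
  have := (memLp_id_gaussianReal' (μ := 0) (v := 1) 1 ENNReal.one_ne_top).integrable le_rfl
  exact this

variable {κ : Type*} [Fintype κ]

theorem measurePreserving_update [DecidableEq κ] (p : κ) :
    MeasurePreserving (fun z : (κ → ℝ) × ℝ => Function.update z.1 p z.2) ((stdPi κ).prod std) (stdPi κ) := by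
  have hm : Measurable fun z : (κ → ℝ) × ℝ => Function.update z.1 p z.2 :=
    measurable_pi_lambda _ fun j => by
      by_cases h : j = p
      · subst h; simpa using measurable_snd
      · simp only [Function.update_of_ne h]
        exact (measurable_pi_apply j).comp measurable_fst
  refine ⟨hm, (Measure.pi_eq fun s hs => ?_).symm⟩
  rw [Measure.map_apply hm (MeasurableSet.univ_pi hs)]
  have : (fun z : (κ → ℝ) × ℝ => Function.update z.1 p z.2) ⁻¹' Set.univ.pi s
      = (Set.univ.pi (Function.update s p Set.univ)) ×ˢ s p := by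
    ext z
    simp only [Set.mem_preimage, Set.mem_pi, Set.mem_univ, forall_true_left, Set.mem_prod]
    constructor
    · intro h
      refine ⟨fun j => ?_, by simpa using h p⟩
      by_cases hj : j = p
      · subst hj; simp
      · simpa [hj] using h j
    · intro h j
      by_cases hj : j = p
      · subst hj; simpa using h.2
      · simpa [hj] using h.1 j
  rw [this, Measure.prod_prod, stdPi, Measure.pi_pi,
    ← Finset.mul_prod_erase _ _ (Finset.mem_univ p),
    ← Finset.mul_prod_erase _ (fun j => std (s j)) (Finset.mem_univ p)]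
  simp only [Function.update_self, measure_univ, one_mul]
  rw [mul_comm]
  congr 1
  exact Finset.prod_congr rfl fun j hj => by rw [Function.update_of_ne (Finset.ne_of_mem_erase hj)]

theorem measurePreserving_coord (p : κ) :
    MeasurePreserving (fun g : κ → ℝ => g p) (stdPi κ) std :=
  measurePreserving_eval (fun _ => std) p

theorem integrable_coord (p : κ) : Integrable (fun g : κ → ℝ => g p) (stdPi κ) :=
  (measurePreserving_coord p).integrable_comp_of_integrable integrable_id_std

/-- Integration by parts in one coordinate. -/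
theorem gauss_ibp [DecidableEq κ] (p : κ) {φ φ' : (κ → ℝ) → ℝ} (hm : Measurable φ) (hm' : Measurable φ')
    {B B' : ℝ} (hb : ∀ g, |φ g| ≤ B) (hb' : ∀ g, |φ' g| ≤ B')
    (hd : ∀ g x, HasDerivAt (fun y => φ (Function.update g p y)) (φ' (Function.update g p x)) x) :
    ∫ g, g p * φ g ∂stdPi κ = ∫ g, φ' g ∂stdPi κ := by
  have hu := measurePreserving_update (κ := κ) p
  have hmu : ∀ g : κ → ℝ, Measurable fun x : ℝ => Function.update g p x := fun g => measurable_update g
  have hint : Integrable (fun g => g p * φ g) (stdPi κ) :=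
    (integrable_coord p).mul_bdd hm.aestronglyMeasurable (Filter.Eventually.of_forall fun g => hb g)
  have hint' : Integrable φ' (stdPi κ) :=
    Integrable.of_bound hm'.aestronglyMeasurable B' (Filter.Eventually.of_forall fun g => hb' g)
  rw [← hu.map_eq, integral_map hu.measurable.aemeasurable (by rw [hu.map_eq]; exact hint.1),
    integral_map hu.measurable.aemeasurable (by rw [hu.map_eq]; exact hint'.1)]
  rw [integral_prod (fun z : (κ → ℝ) × ℝ => Function.update z.1 p z.2 p * φ (Function.update z.1 p z.2))
      (hu.integrable_comp_of_integrable hint),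
    integral_prod (fun z : (κ → ℝ) × ℝ => φ' (Function.update z.1 p z.2))
      (hu.integrable_comp_of_integrable hint')]
  refine integral_congr_ae (Filter.Eventually.of_forall fun g => ?_)
  simp only [Function.update_self]
  exact stein (hd g)
    (Integrable.of_bound (hm.comp (hmu g)).aestronglyMeasurable B (Filter.Eventually.of_forall fun x => hb _))
    (Integrable.of_bound (hm'.comp (hmu g)).aestronglyMeasurable B' (Filter.Eventually.of_forall fun x => hb' _))
    (integrable_id_std.mul_bdd (hm.comp (hmu g)).aestronglyMeasurable (Filter.Eventually.of_forall fun x => hb _))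

variable {X : Type*} [Fintype X]

/-- The linear exponent. -/
noncomputable def expo (A : X → κ → ℝ) (c g : κ → ℝ) (x : X) : ℝ := ∑ k, c k * g k * A x k

/-- The log partition function. -/
noncomputable def press (A : X → κ → ℝ) (c g : κ → ℝ) : ℝ := log (∑ x, exp (expo A c g x))

/-- The Gibbs average of `A · k`. -/
noncomputable def avg (A : X → κ → ℝ) (c g : κ → ℝ) (k : κ) : ℝ :=
  (∑ x, exp (expo A c g x) * A x k) / ∑ x, exp (expo A c g x)

variable [Nonempty X] {A : X → κ → ℝ}

theorem sum_exp_pos (A : X → κ → ℝ) (c g : κ → ℝ) : 0 < ∑ x, exp (expo A c g x) :=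
  Finset.sum_pos (fun _ _ => exp_pos _) Finset.univ_nonempty

theorem abs_avg_le (hA : ∀ x k, A x k ^ 2 = 1) (c g : κ → ℝ) (k : κ) : |avg A c g k| ≤ 1 := by
  rw [avg, abs_div, abs_of_pos (sum_exp_pos A c g), div_le_one (sum_exp_pos A c g)]
  refine (Finset.abs_sum_le_sum_abs _ _).trans (Finset.sum_le_sum fun x _ => ?_)
  have h1 : |A x k| = 1 := by rcases sq_eq_one_iff.1 (hA x k) with h | h <;> simp [h]
  rw [abs_mul, abs_of_pos (exp_pos _), h1, mul_one]

omit [Nonempty X] in
theorem measurable_avg (A : X → κ → ℝ) (c : κ → ℝ) (k : κ) : Measurable fun g => avg A c g k := by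
  unfold avg expo; fun_prop

theorem avg_sq_le (hA : ∀ x k, A x k ^ 2 = 1) (c g : κ → ℝ) (k : κ) : avg A c g k ^ 2 ≤ 1 :=
  (sq_le_one_iff_abs_le_one _).2 (abs_avg_le hA c g k)

omit [Fintype X] [Nonempty X] in
theorem expo_update [DecidableEq κ] (A : X → κ → ℝ) (c g : κ → ℝ) (k : κ) (y : ℝ) (x : X) :
    expo A c (Function.update g k y) x = c k * y * A x k + ∑ j ∈ Finset.univ.erase k, c j * g j * A x j := by
  rw [expo, ← Finset.add_sum_erase _ _ (Finset.mem_univ k), Function.update_self]
  congr 1
  exact Finset.sum_congr rfl fun j hj => by rw [Function.update_of_ne (Finset.ne_of_mem_erase hj)]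

theorem hasDerivAt_avg [DecidableEq κ] (hA : ∀ x k, A x k ^ 2 = 1) (c g : κ → ℝ) (k : κ) (y : ℝ) :
    HasDerivAt (fun y => avg A c (Function.update g k y) k)
      (c k * (1 - avg A c (Function.update g k y) k ^ 2)) y := by
  have hS := (sum_exp_pos A c (Function.update g k y)).ne'
  simp only [avg, expo_update] at hS ⊢
  have he : ∀ x, HasDerivAt
      (fun y => exp (c k * y * A x k + ∑ j ∈ Finset.univ.erase k, c j * g j * A x j))
      (exp (c k * y * A x k + ∑ j ∈ Finset.univ.erase k, c j * g j * A x j) * (c k * A x k)) y := fun x => by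
    simpa using ((((hasDerivAt_id y).const_mul (c k)).mul_const (A x k)).add_const _).exp
  refine ((HasDerivAt.fun_sum fun x _ => (he x).mul_const (A x k)).div
    (HasDerivAt.fun_sum fun x _ => he x) hS).congr_deriv ?_
  symm
  set w := fun x => exp (c k * y * A x k + ∑ j ∈ Finset.univ.erase k, c j * g j * A x j)
  have e1 : ∑ x, w x * (c k * A x k) * A x k = c k * ∑ x, w x := by
    rw [Finset.mul_sum]; refine Finset.sum_congr rfl fun x _ => ?_
    linear_combination (w x * c k) * hA x k
  have e2 : ∑ x, w x * (c k * A x k) = c k * ∑ x, w x * A x k := by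
    rw [Finset.mul_sum]; exact Finset.sum_congr rfl fun x _ => by ring
  change c k * (1 - ((∑ x, w x * A x k) / ∑ x, w x) ^ 2)
    = ((∑ x, w x * (c k * A x k) * A x k) * ∑ x, w x
      - (∑ x, w x * A x k) * ∑ x, w x * (c k * A x k)) / (∑ x, w x) ^ 2
  rw [e1, e2]
  field_simp

theorem mean_coord_mul_avg (hA : ∀ x k, A x k ^ 2 = 1) (c : κ → ℝ) (k : κ) :
    ∫ g, g k * avg A c g k ∂stdPi κ = c k * (1 - ∫ g, avg A c g k ^ 2 ∂stdPi κ) := by
  classical
  rw [gauss_ibp k (φ' := fun g => c k * (1 - avg A c g k ^ 2)) (B := 1) (B' := |c k|) (measurable_avg A c k)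
    ((measurable_avg A c k).pow_const 2 |>.const_sub 1 |>.const_mul _) (fun g => abs_avg_le hA c g k)
    (fun g => by
      rw [abs_mul]
      refine mul_le_of_le_one_right (abs_nonneg _) ?_
      rw [abs_of_nonneg (sub_nonneg.2 (avg_sq_le hA c g k))]
      linarith [sq_nonneg (avg A c g k)])
    (hasDerivAt_avg hA c · k), integral_const_mul, integral_sub (integrable_const _), integral_const]
  · simp
  · exact Integrable.of_bound ((measurable_avg A c k).pow_const 2).aestronglyMeasurable 1
      (Filter.Eventually.of_forall fun g => by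
        rw [Real.norm_of_nonneg (sq_nonneg _)]; exact avg_sq_le hA c g k)

theorem abs_press_le (hA : ∀ x k, A x k ^ 2 = 1) (c g : κ → ℝ) :
    |press A c g| ≤ log (Fintype.card X) + ∑ k, |c k| * |g k| := by
  set M := ∑ k, |c k| * |g k|
  have hb : ∀ x, |expo A c g x| ≤ M := fun x => by
    refine (Finset.abs_sum_le_sum_abs _ _).trans (Finset.sum_le_sum fun k _ => le_of_eq ?_)
    rw [abs_mul, abs_mul]
    rcases sq_eq_one_iff.1 (hA x k) with h | h <;> simp [h]
  obtain ⟨x0⟩ := ‹Nonempty X›
  have hc : (0 : ℝ) < Fintype.card X := by exact_mod_cast Fintype.card_pos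
  have hc1 : 0 ≤ log (Fintype.card X : ℝ) := log_natCast_nonneg _
  refine abs_le.2 ⟨?_, ?_⟩
  · have h1 : exp (-M) ≤ ∑ x, exp (expo A c g x) :=
      (exp_le_exp.2 (abs_le.1 (hb x0)).1).trans
        (Finset.single_le_sum (fun x _ => (exp_pos (expo A c g x)).le) (Finset.mem_univ x0))
    have h2 := log_le_log (exp_pos _) h1
    rw [log_exp] at h2
    rw [press]; linarith
  · have h1 : ∑ x, exp (expo A c g x) ≤ Fintype.card X * exp M := by
      refine (Finset.sum_le_sum fun x _ => exp_le_exp.2 (abs_le.1 (hb x)).2).trans (le_of_eq ?_)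
      simp
    have h2 := log_le_log (sum_exp_pos A c g) h1
    rw [log_mul hc.ne' (exp_pos _).ne', log_exp] at h2
    exact h2

omit [Nonempty X] in
theorem measurable_press (A : X → κ → ℝ) (c : κ → ℝ) : Measurable fun g => press A c g := by
  unfold press expo; fun_prop

theorem integrable_press (hA : ∀ x k, A x k ^ 2 = 1) (c : κ → ℝ) :
    Integrable (fun g => press A c g) (stdPi κ) :=
  Integrable.mono' ((integrable_const _).add
      (integrable_finsetSum _ fun k _ => (integrable_coord k).abs.const_mul |c k|))
    (measurable_press A c).aestronglyMeasurable (Filter.Eventually.of_forall fun g => abs_press_le hA c g)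

theorem hasDerivAt_mean_press (hA : ∀ x k, A x k ^ 2 = 1) {c c' : ℝ → κ → ℝ}
    (hc : ∀ θ k, HasDerivAt (c · k) (c' θ k) θ) {B : ℝ} (hB : ∀ θ k, |c' θ k| ≤ B) (θ : ℝ) :
    HasDerivAt (fun s => ∫ g, press A (c s) g ∂stdPi κ)
      (∑ k, c' θ k * c θ k * (1 - ∫ g, avg A (c θ) g k ^ 2 ∂stdPi κ)) θ := by
  have hd : ∀ g : κ → ℝ, ∀ s, HasDerivAt (fun s => press A (c s) g)
      (∑ k, c' s k * (g k * avg A (c s) g k)) s := fun g s => by
    have he : ∀ x, HasDerivAt (fun s => exp (expo A (c s) g x))
        (exp (expo A (c s) g x) * ∑ k, c' s k * g k * A x k) s := fun x =>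
      (HasDerivAt.fun_sum fun k _ => ((hc s k).mul_const (g k)).mul_const (A x k)).exp
    refine ((HasDerivAt.fun_sum fun x _ => he x).log (sum_exp_pos A (c s) g).ne').congr_deriv ?_
    symm
    simp_rw [avg, Finset.mul_sum]
    rw [Finset.sum_comm, Finset.sum_div]
    refine Finset.sum_congr rfl fun k _ => ?_
    rw [mul_div_assoc', mul_div_assoc', Finset.mul_sum, Finset.mul_sum]
    congr 1
    exact Finset.sum_congr rfl fun x _ => by ring
  have hF := hasDerivAt_integral_of_dominated_loc_of_deriv_le (μ := stdPi κ) (s := Set.univ)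
    (F := fun s g => press A (c s) g) (F' := fun s g => ∑ k, c' s k * (g k * avg A (c s) g k))
    (bound := fun g => ∑ k, B * |g k|) (x₀ := θ) Filter.univ_mem
    (Filter.Eventually.of_forall fun s => (measurable_press A (c s)).aestronglyMeasurable)
    (integrable_press hA _)
    (Measurable.aestronglyMeasurable (Finset.measurable_sum _ fun k _ =>
      ((measurable_pi_apply k).mul (measurable_avg A (c θ) k)).const_mul _))
    (Filter.Eventually.of_forall fun g s _ => by
      refine (Finset.abs_sum_le_sum_abs _ _).trans (Finset.sum_le_sum fun k _ => ?_)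
      rw [abs_mul, abs_mul]
      calc |c' s k| * (|g k| * |avg A (c s) g k|) ≤ B * (|g k| * 1) := by
            gcongr
            · exact (abs_nonneg _).trans (hB s k)
            · exact hB s k
            · exact abs_avg_le hA _ _ _
        _ = B * |g k| := by ring)
    (integrable_finsetSum _ fun k _ => (integrable_coord k).abs.const_mul B)
    (Filter.Eventually.of_forall fun g s _ => hd g s)
  refine hF.2.congr_deriv ?_
  rw [integral_finsetSum _ fun k _ => ((integrable_coord k).mul_bdd
      (measurable_avg A _ k).aestronglyMeasurable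
      (Filter.Eventually.of_forall fun g => abs_avg_le hA (c θ) g k)).const_mul _]
  refine Finset.sum_congr rfl fun k _ => ?_
  rw [integral_const_mul, mean_coord_mul_avg hA]
  ring

theorem integral_exp_std (v : ℝ) : ∫ x, exp (v * x) ∂std = exp (v ^ 2 / 2) := by
  have := congrFun (mgf_id_gaussianReal (μ := 0) (v := 1)) v
  simpa [mgf, std] using this

theorem integrable_exp_dot (v : κ → ℝ) : Integrable (fun z => exp (∑ k, v k * z k)) (stdPi κ) := by
  simp_rw [exp_sum]
  exact Integrable.fintype_prod fun k => integrable_exp_mul_gaussianReal (v k)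

theorem integral_exp_dot (v : κ → ℝ) :
    ∫ z, exp (∑ k, v k * z k) ∂stdPi κ = exp ((∑ k, v k ^ 2) / 2) := by
  simp_rw [exp_sum]
  rw [stdPi, integral_fintype_prod_eq_prod (𝕜 := ℝ) (f := fun k x => exp (v k * x))]
  simp only [integral_exp_std]
  rw [← exp_sum, Finset.sum_div]

end Vale.Agent.P150
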