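import Vale.Agent.P150.Gauss

/-!
# P150: the replica-symmetric upper bound and a free-energy deficit below the critical temperature
-/

open MeasureTheory ProbabilityTheory Real

namespace Vale.Agent.P150

theorem spin_sq (b : Bool) : spin b ^ 2 = 1 := by cases b <;> simp [spin]

theorem spin_mul_self (b : Bool) : spin b * spin b = 1 := by cases b <;> simp [spin]

theorem abs_spin (b : Bool) : |spin b| = 1 := by cases b <;> simp [spin]

theorem spin_not (b : Bool) : spin (!b) = -spin b := by cases b <;> simp [spin]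

theorem sum_edge {n : ℕ} (φ : Fin n → Fin n → ℝ) (hs : ∀ i j, φ i j = φ j i) :
    2 * ∑ e : Edge n, φ e.1.1 e.1.2 = ∑ i, ∑ j, φ i j - ∑ i, φ i i := by
  have h1 : ∑ e : Edge n, φ e.1.1 e.1.2 = ∑ i, ∑ j, if i < j then φ i j else 0 := by
    rw [← Fintype.sum_prod_type', ← Finset.sum_filter]
    exact (Finset.sum_subtype _ (fun p => by simp) fun p : Fin n × Fin n => φ p.1 p.2).symm
  have h2 : ∑ i, ∑ j, (if i < j then φ i j else 0) = ∑ i, ∑ j, if j < i then φ i j else 0 := by
    rw [Finset.sum_comm]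
    exact Finset.sum_congr rfl fun i _ => Finset.sum_congr rfl fun j _ => by rw [hs j i]
  rw [h1, two_mul]
  nth_rewrite 2 [h2]
  rw [← Finset.sum_add_distrib, eq_sub_iff_add_eq, ← Finset.sum_add_distrib]
  refine Finset.sum_congr rfl fun i _ => ?_
  have h3 : φ i i = ∑ j, if j = i then φ i j else 0 := by simp
  rw [h3, ← Finset.sum_add_distrib, ← Finset.sum_add_distrib]
  refine Finset.sum_congr rfl fun j _ => ?_
  rcases lt_trichotomy i j with h | h | h
  · simp [h, h.ne', h.not_gt]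
  · simp [h]
  · simp [h, h.ne, h.not_gt]

theorem overlap_identity {n : ℕ} {X : Type*} [Fintype X] (w : X → ℝ) (a : X → Fin n → ℝ) :
    (∑ i, ∑ j, (∑ x, w x * (a x i * a x j)) ^ 2 = ∑ x, ∑ y, w x * w y * (∑ i, a x i * a y i) ^ 2) ∧
      ∑ i, (∑ x, w x * a x i) ^ 2 = ∑ x, ∑ y, w x * w y * ∑ i, a x i * a y i := by
  constructor
  · simp only [sq, Finset.sum_mul, Finset.mul_sum]
    conv_lhs => enter [2, i]; rw [Finset.sum_comm]
    rw [Finset.sum_comm]
    refine Finset.sum_congr rfl fun x _ => ?_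
    conv_lhs => enter [2, i]; rw [Finset.sum_comm]
    rw [Finset.sum_comm]
    exact Finset.sum_congr rfl fun y _ => Finset.sum_congr rfl fun i _ => Finset.sum_congr rfl fun j _ => by ring
  · simp only [sq, Finset.sum_mul, Finset.mul_sum]
    rw [Finset.sum_comm]
    refine Finset.sum_congr rfl fun x _ => ?_
    rw [Finset.sum_comm]
    exact Finset.sum_congr rfl fun y _ => Finset.sum_congr rfl fun i _ => by ring

theorem rs_pointwise {n : ℕ} {X : Type*} [Fintype X] (w : X → ℝ) (hw : ∀ x, 0 ≤ w x) (h1 : ∑ x, w x = 1)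
    (a : X → Fin n → ℝ) (q : ℝ) :
    (n : ℝ) ^ 2 - ∑ i, ∑ j, (∑ x, w x * (a x i * a x j)) ^ 2
        - 2 * q * n * (n - ∑ i, (∑ x, w x * a x i) ^ 2) ≤ (n : ℝ) ^ 2 * (1 - q) ^ 2 := by
  obtain ⟨e1, e2⟩ := overlap_identity w a
  have hnn : 0 ≤ ∑ x, ∑ y, w x * w y * (∑ i, a x i * a y i - q * n) ^ 2 :=
    Finset.sum_nonneg fun x _ => Finset.sum_nonneg fun y _ =>
      mul_nonneg (mul_nonneg (hw x) (hw y)) (sq_nonneg _)
  have h11 : ∑ x, ∑ y, w x * w y = 1 := by simp_rw [← Finset.mul_sum, ← Finset.sum_mul, h1, one_mul]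
  have e : ∑ x, ∑ y, w x * w y * (∑ i, a x i * a y i - q * n) ^ 2
      = (∑ x, ∑ y, w x * w y * (∑ i, a x i * a y i) ^ 2)
        - 2 * q * n * (∑ x, ∑ y, w x * w y * ∑ i, a x i * a y i) + (q * n) ^ 2 * ∑ x, ∑ y, w x * w y := by
    rw [Finset.mul_sum, Finset.mul_sum, ← Finset.sum_sub_distrib, ← Finset.sum_add_distrib]
    refine Finset.sum_congr rfl fun x _ => ?_
    rw [Finset.mul_sum, Finset.mul_sum, ← Finset.sum_sub_distrib, ← Finset.sum_add_distrib]
    exact Finset.sum_congr rfl fun y _ => by ring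
  rw [e, h11] at hnn
  rw [e1, e2]
  nlinarith

/-- The pair observables. -/
noncomputable def pairA (n : ℕ) (x : Fin n → Bool) (e : Edge n) : ℝ := spin (x e.1.1) * spin (x e.1.2)

/-- Pair and single observables. -/
noncomputable def jointA (n : ℕ) (x : Fin n → Bool) : Edge n ⊕ Fin n → ℝ :=
  Sum.elim (pairA n x) fun i => spin (x i)

theorem pairA_sq (n : ℕ) (x : Fin n → Bool) (e : Edge n) : pairA n x e ^ 2 = 1 := by
  rw [pairA, mul_pow, spin_sq, spin_sq, one_mul]

theorem jointA_sq (n : ℕ) (x : Fin n → Bool) (k : Edge n ⊕ Fin n) : jointA n x k ^ 2 = 1 := by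
  cases k with
  | inl e => exact pairA_sq n x e
  | inr i => exact spin_sq _

theorem disorder_eq (n : ℕ) : disorder n = stdPi (Edge n) := rfl

/-- `E log Z_n(β)`. -/
noncomputable def free (n : ℕ) (β : ℝ) : ℝ :=
  ∫ g, press (pairA n) (fun _ => β / √n) g ∂stdPi (Edge n)

theorem measurePreserving_left {α γ : Type*} [Fintype α] [Fintype γ] :
    MeasurePreserving (fun g : α ⊕ γ → ℝ => g ∘ Sum.inl) (stdPi (α ⊕ γ)) (stdPi α) := by
  have hm : Measurable fun g : α ⊕ γ → ℝ => g ∘ Sum.inl :=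
    measurable_pi_lambda _ fun a => measurable_pi_apply _
  refine ⟨hm, (Measure.pi_eq fun s hs => ?_).symm⟩
  rw [Measure.map_apply hm (MeasurableSet.univ_pi hs)]
  have : (fun g : α ⊕ γ → ℝ => g ∘ Sum.inl) ⁻¹' Set.univ.pi s
      = Set.univ.pi (Sum.elim s fun _ => Set.univ) := by
    ext g; simp
  rw [this, stdPi, Measure.pi_pi, Fintype.prod_sum_type]
  simp

theorem integrable_pow_std (m : ℕ) : Integrable (fun x : ℝ => x ^ m) std := by
  have h := (memLp_id_gaussianReal' (μ := 0) (v := 1) m (ENNReal.natCast_ne_top m)).integrable_norm_pow'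
  exact Integrable.mono' h (by fun_prop) (Filter.Eventually.of_forall fun x => by simp)

theorem moment_succ (m : ℕ) : ∫ x, x ^ (m + 2) ∂std = (m + 1) * ∫ x, x ^ m ∂std := by
  rw [← integral_const_mul]
  have h := stein (φ := fun x => x ^ (m + 1)) (φ' := fun x => ((m : ℝ) + 1) * x ^ m)
    (fun x => by simpa using hasDerivAt_pow (m + 1) x) (integrable_pow_std _)
    ((integrable_pow_std _).const_mul _) ((integrable_pow_std (m + 2)).congr
      (Filter.Eventually.of_forall fun x => by ring))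
  rw [← h]
  exact integral_congr_ae (Filter.Eventually.of_forall fun x => by ring)

theorem tanh_bounds {x : ℝ} (hx : 0 ≤ x) :
    tanh x ≤ x ∧ x - x ^ 3 / 3 ≤ tanh x ∧ tanh x ≤ x - x ^ 3 / 3 + 2 * x ^ 5 / 15 := by
  have hd : ∀ y, HasDerivAt tanh (1 - tanh y ^ 2) y := fun y => by
    have e : tanh = fun z => sinh z / cosh z := funext tanh_eq_sinh_div_cosh
    rw [e]
    refine ((hasDerivAt_sinh y).div (hasDerivAt_cosh y) (cosh_pos y).ne').congr_deriv ?_
    have := (cosh_pos y).ne'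
    field_simp
  have key : ∀ (f f' : ℝ → ℝ), (∀ y, HasDerivAt f (f' y) y) → f 0 = 0 → (∀ y, 0 < y → 0 ≤ f' y) →
      ∀ y, 0 ≤ y → 0 ≤ f y := fun f f' hf h0 hpos y hy => by
    have hmon : MonotoneOn f (Set.Ici 0) := monotoneOn_of_deriv_nonneg (convex_Ici 0)
      (fun z _ => (hf z).continuousAt.continuousWithinAt)
      (fun z _ => (hf z).differentiableAt.differentiableWithinAt)
      fun z hz => by rw [(hf z).deriv]; exact hpos z (by simpa using hz)
    simpa [h0] using hmon Set.self_mem_Ici hy hy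
  have a1 : ∀ y : ℝ, 0 ≤ y → 0 ≤ y - tanh y := key (fun y => y - tanh y) (fun y => 1 - (1 - tanh y ^ 2))
    (fun y => (hasDerivAt_id y).sub (hd y)) (by simp) fun y _ => by nlinarith
  have a0 : ∀ y : ℝ, 0 ≤ y → 0 ≤ tanh y := key _ _ hd (by simp) fun y _ => by
    have := abs_tanh_lt_one y
    nlinarith [abs_lt.1 this]
  have a2 : ∀ y : ℝ, 0 ≤ y → 0 ≤ tanh y - (y - y ^ 3 / 3) := key (fun y => tanh y - (y - y ^ 3 / 3))
    (fun y => (1 - tanh y ^ 2) - (1 - y ^ 2))
    (fun y => ((hd y).sub ((hasDerivAt_id y).sub ((hasDerivAt_pow 3 y).div_const 3))).congr_deriv (by simp))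
    (by simp) fun y hy => by nlinarith [a1 y hy.le, a0 y hy.le]
  have a3 : ∀ y : ℝ, 0 ≤ y → 0 ≤ y - y ^ 3 / 3 + 2 * y ^ 5 / 15 - tanh y :=
    key (fun y => y - y ^ 3 / 3 + 2 * y ^ 5 / 15 - tanh y)
      (fun y => (1 - y ^ 2 + 2 * y ^ 4 / 3) - (1 - tanh y ^ 2))
      (fun y => ((((hasDerivAt_id y).sub ((hasDerivAt_pow 3 y).div_const 3)).add
        (((hasDerivAt_pow 5 y).const_mul 2).div_const 15)).sub (hd y)).congr_deriv (by simp; ring))
      (by simp) fun y hy => by
        rcases le_or_gt 0 (y - y ^ 3 / 3) with h | h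
        · nlinarith [pow_le_pow_left₀ h (sub_nonneg.1 (a2 y hy.le)) 2, pow_pos hy 6]
        · have h3 : 3 < y ^ 2 := by nlinarith
          nlinarith [sq_nonneg (tanh y), mul_pos (pow_pos hy 2) (show (0 : ℝ) < 2 * y ^ 2 / 3 - 1 by linarith)]
  exact ⟨by linarith [a1 x hx], by linarith [a2 x hx], by linarith [a3 x hx]⟩

theorem log_cosh_le (x : ℝ) : log (cosh x) ≤ x ^ 2 / 2 - x ^ 4 / 12 + x ^ 6 / 45 := by
  have hd : ∀ y, HasDerivAt (fun y => y ^ 2 / 2 - y ^ 4 / 12 + y ^ 6 / 45 - log (cosh y))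
      (y - y ^ 3 / 3 + 2 * y ^ 5 / 15 - tanh y) y := fun y => by
    refine (((((hasDerivAt_pow 2 y).div_const 2).sub ((hasDerivAt_pow 4 y).div_const 12)).add
      ((hasDerivAt_pow 6 y).div_const 45)).sub ((hasDerivAt_cosh y).log (cosh_pos y).ne')).congr_deriv ?_
    rw [tanh_eq_sinh_div_cosh]; push_cast; ring
  have hmon : MonotoneOn (fun y => y ^ 2 / 2 - y ^ 4 / 12 + y ^ 6 / 45 - log (cosh y)) (Set.Ici 0) :=
    monotoneOn_of_deriv_nonneg (convex_Ici 0) (fun z _ => (hd z).continuousAt.continuousWithinAt)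
      (fun z _ => (hd z).differentiableAt.differentiableWithinAt) fun z hz => by
        rw [(hd z).deriv]
        have h0 : (0 : ℝ) ≤ z := le_of_lt (by simpa using hz)
        linarith [(tanh_bounds h0).2.2]
  have := hmon Set.self_mem_Ici (abs_nonneg x) (abs_nonneg x)
  simp only [cosh_zero, log_one, cosh_abs, ne_eq, OfNat.ofNat_ne_zero, not_false_eq_true, zero_pow,
    zero_div, sub_zero, add_zero, (by decide : Even 2).pow_abs, (by decide : Even 4).pow_abs,
    (by decide : Even 6).pow_abs] at this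
  linarith

theorem mean_log_cosh_le (a : ℝ) :
    ∫ z, log (2 * cosh (a * z)) ∂std ≤ log 2 + (a ^ 2 / 2 - a ^ 4 / 4 + a ^ 6 / 3) := by
  have i1 := ((integrable_pow_std 2).const_mul (a ^ 2 / 2))
  have i2 := ((integrable_pow_std 4).const_mul (a ^ 4 / 12))
  have i3 := ((integrable_pow_std 6).const_mul (a ^ 6 / 45))
  refine (integral_mono_of_nonneg (Filter.Eventually.of_forall fun z => log_nonneg (by linarith [one_le_cosh (a * z)]))
    ((integrable_const (log 2)).add ((i1.sub i2).add i3)) (Filter.Eventually.of_forall fun z => ?_)).trans (le_of_eq ?_)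
  · have := log_cosh_le (a * z)
    simp only [Pi.add_apply, Pi.sub_apply]
    rw [log_mul two_ne_zero (cosh_pos _).ne']
    nlinarith
  · simp only [Pi.add_apply, Pi.sub_apply]
    have i12 : Integrable (fun z : ℝ => a ^ 2 / 2 * z ^ 2 - a ^ 4 / 12 * z ^ 4) std := i1.sub i2
    have i123 : Integrable (fun z : ℝ => a ^ 2 / 2 * z ^ 2 - a ^ 4 / 12 * z ^ 4 + a ^ 6 / 45 * z ^ 6) std :=
      i12.add i3
    rw [integral_add (integrable_const _) i123, integral_add i12 i3,
      integral_sub i1 i2, integral_const_mul, integral_const_mul, integral_const_mul, moment_succ 4,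
      moment_succ 2, moment_succ 0]
    simp; ring

theorem guerra (n : ℕ) (β q : ℝ) (hq : 0 ≤ q) :
    free n β ≤ n * (log 2 + ((β ^ 2 * q) / 2 - (β ^ 2 * q) ^ 2 / 4 + (β ^ 2 * q) ^ 3 / 3)
      + β ^ 2 * (1 - q) ^ 2 / 4) := by
  set A := jointA n
  set c : ℝ → Edge n ⊕ Fin n → ℝ := fun θ =>
    Sum.elim (fun _ => β / √n * sin θ) fun _ => β * √q * cos θ with hc_def
  set c' : ℝ → Edge n ⊕ Fin n → ℝ := fun θ =>
    Sum.elim (fun _ => β / √n * cos θ) fun _ => -(β * √q * sin θ) with hc'_def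
  have hc : ∀ θ k, HasDerivAt (c · k) (c' θ k) θ := fun θ k => by
    cases k with
    | inl e => simpa [hc_def, hc'_def] using (hasDerivAt_sin θ).const_mul (β / √n)
    | inr i => simpa [hc_def, hc'_def] using (hasDerivAt_cos θ).const_mul (β * √q)
  have hB : ∀ θ k, |c' θ k| ≤ |β / √n| + |β * √q| := fun θ k => by
    cases k with
    | inl e =>
      simp only [hc'_def, Sum.elim_inl]
      rw [abs_mul]
      exact (mul_le_of_le_one_right (abs_nonneg _) (abs_cos_le_one θ)).trans (le_add_of_nonneg_right (abs_nonneg _))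
    | inr i =>
      simp only [hc'_def, Sum.elim_inr]
      rw [abs_neg, abs_mul]
      exact (mul_le_of_le_one_right (abs_nonneg _) (abs_sin_le_one θ)).trans (le_add_of_nonneg_left (abs_nonneg _))
  set ψ := fun θ => ∫ g, press A (c θ) g ∂stdPi (Edge n ⊕ Fin n)
  have hψ := fun θ => hasDerivAt_mean_press (jointA_sq n) hc hB θ
  have hder : ∀ θ, 0 ≤ sin θ → 0 ≤ cos θ →
      ∑ k, c' θ k * c θ k * (1 - ∫ g, avg A (c θ) g k ^ 2 ∂stdPi (Edge n ⊕ Fin n))
        ≤ β ^ 2 * n * (1 - q) ^ 2 / 2 * (sin θ * cos θ) := by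
    intro θ hs hco
    rcases Nat.eq_zero_or_pos n with rfl | hn
    · simp
    have hn' : (0 : ℝ) < n := by exact_mod_cast hn
    have hi : ∀ k, Integrable (fun g => 1 - avg A (c θ) g k ^ 2) (stdPi (Edge n ⊕ Fin n)) := fun k =>
      (integrable_const _).sub (Integrable.of_bound ((measurable_avg A _ k).pow_const 2).aestronglyMeasurable 1
        (Filter.Eventually.of_forall fun g => by
          rw [Real.norm_of_nonneg (sq_nonneg _)]; exact avg_sq_le (jointA_sq n) _ g k))
    have e : ∀ k, 1 - ∫ g, avg A (c θ) g k ^ 2 ∂stdPi (Edge n ⊕ Fin n)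
        = ∫ g, (1 - avg A (c θ) g k ^ 2) ∂stdPi (Edge n ⊕ Fin n) := fun k => by
      rw [integral_sub (integrable_const _)]
      · simp
      · exact ((integrable_const (1 : ℝ)).sub (hi k)).congr (Filter.Eventually.of_forall fun g => by simp)
    simp_rw [e]
    simp_rw [← integral_const_mul]
    rw [← integral_finsetSum _ fun k _ => (hi k).const_mul _]
    refine (integral_mono (integrable_finsetSum _ fun k _ => (hi k).const_mul _)
      (integrable_const (β ^ 2 * n * (1 - q) ^ 2 / 2 * (sin θ * cos θ))) fun g => ?_).trans (by simp)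
    set w : (Fin n → Bool) → ℝ := fun x => exp (expo A (c θ) g x) / ∑ y, exp (expo A (c θ) g y)
    have hw : ∀ x, 0 ≤ w x := fun x => div_nonneg (exp_pos _).le (sum_exp_pos _ _ _).le
    have h1 : ∑ x, w x = 1 := by rw [← Finset.sum_div, div_self (sum_exp_pos _ _ _).ne']
    have hp := rs_pointwise w hw h1 (fun x i => spin (x i)) q
    have avg_eq : ∀ k, avg A (c θ) g k = ∑ x, w x * A x k := fun k => by
      rw [avg, Finset.sum_div]; exact Finset.sum_congr rfl fun x _ => by ring
    set M : Fin n → Fin n → ℝ := fun i j => ∑ x, w x * (spin (x i) * spin (x j))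
    have he := sum_edge (fun i j => 1 - M i j ^ 2) fun i j => by simp [M, mul_comm]
    have hdiag : ∀ i, M i i = 1 := fun i => by simp [M, spin_mul_self, h1]
    simp only [hdiag, one_pow, sub_self, Finset.sum_const_zero, sub_zero, Finset.sum_sub_distrib,
      Finset.sum_const, Finset.card_univ, Fintype.card_fin, nsmul_eq_mul, mul_one] at he
    simp only [avg_eq]
    rw [Fintype.sum_sum_type]
    simp only [hc_def, hc'_def, Sum.elim_inl, Sum.elim_inr, A, jointA, pairA, ← Finset.mul_sum]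
    have hsn : √(n : ℝ) ^ 2 = n := sq_sqrt hn'.le
    have hsq : √q ^ 2 = q := sq_sqrt hq
    have hbn : β / √n * cos θ * (β / √n * sin θ) = β ^ 2 / n * (sin θ * cos θ) := by
      field_simp; rw [hsn]; ring
    have hbq : -(β * √q * sin θ) * (β * √q * cos θ) = -(β ^ 2 * q * (sin θ * cos θ)) := by
      linear_combination (-(β ^ 2 * sin θ * cos θ)) * hsq
    rw [hbn, hbq, Finset.sum_sub_distrib]
    simp only [Finset.sum_const, Finset.card_univ, Fintype.card_fin, nsmul_eq_mul, mul_one,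
      Finset.sum_sub_distrib]
    set P := ∑ e : Edge n, (1 - M e.1.1 e.1.2 ^ 2) with hP
    rw [Finset.sum_sub_distrib] at hP
    simp only [Finset.sum_const, Finset.card_univ, nsmul_eq_mul, mul_one] at hP
    change β ^ 2 / n * (sin θ * cos θ) * ((Fintype.card (Edge n) : ℝ) - ∑ e : Edge n, M e.1.1 e.1.2 ^ 2)
        + -(β ^ 2 * q * (sin θ * cos θ)) * (n - ∑ i, (∑ x, w x * spin (x i)) ^ 2) ≤ _
    rw [← hP]
    have hsc : 0 ≤ β ^ 2 * (sin θ * cos θ) / (2 * n) := by positivity
    have := mul_le_mul_of_nonneg_left (show 2 * P - 2 * q * n * (n - ∑ i, (∑ x, w x * spin (x i)) ^ 2)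
        ≤ (n : ℝ) ^ 2 * (1 - q) ^ 2 by rw [hP, he]; nlinarith [hp]) hsc
    calc _ = β ^ 2 * (sin θ * cos θ) / (2 * n)
          * (2 * P - 2 * q * n * (n - ∑ i, (∑ x, w x * spin (x i)) ^ 2)) := by field_simp; ring
      _ ≤ _ := this
      _ = _ := by field_simp
  have hmono : AntitoneOn (fun θ => ψ θ - β ^ 2 * n * (1 - q) ^ 2 / 4 * sin θ ^ 2) (Set.Icc 0 (π / 2)) := by
    have hd : ∀ θ, HasDerivAt (fun θ => ψ θ - β ^ 2 * n * (1 - q) ^ 2 / 4 * sin θ ^ 2)
        (∑ k, c' θ k * c θ k * (1 - ∫ g, avg A (c θ) g k ^ 2 ∂stdPi (Edge n ⊕ Fin n))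
          - β ^ 2 * n * (1 - q) ^ 2 / 2 * (sin θ * cos θ)) θ := fun θ =>
      ((hψ θ).sub (((hasDerivAt_sin θ).pow 2).const_mul _)).congr_deriv (by simp; ring)
    refine antitoneOn_of_deriv_nonpos (convex_Icc _ _) (fun z _ => (hd z).continuousAt.continuousWithinAt)
      (fun z _ => (hd z).differentiableAt.differentiableWithinAt) fun z hz => ?_
    rw [(hd z).deriv]
    rw [interior_Icc] at hz
    have := hder z (sin_nonneg_of_nonneg_of_le_pi hz.1.le (by linarith [hz.2, pi_pos]))
      (cos_nonneg_of_mem_Icc ⟨by linarith [hz.1, pi_pos], hz.2.le⟩)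
    linarith
  have key := hmono (Set.left_mem_Icc.2 (by positivity)) (Set.right_mem_Icc.2 (by positivity)) (by positivity)
  simp only [sin_zero, sin_pi_div_two, one_pow, mul_one, ne_eq, OfNat.ofNat_ne_zero, not_false_eq_true,
    zero_pow, mul_zero, sub_zero] at key
  have hend : ψ (π / 2) = free n β := by
    have hmp := measurePreserving_left (α := Edge n) (γ := Fin n)
    rw [free, ← hmp.map_eq, integral_map hmp.measurable.aemeasurable (measurable_press _ _).aestronglyMeasurable]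
    refine integral_congr_ae (Filter.Eventually.of_forall fun g => ?_)
    simp [press, expo, A, hc_def, jointA, Fintype.sum_sum_type]
  have hstart : ψ 0 = n * ∫ z, log (2 * cosh (β * √q * z)) ∂std := by
    have e : ∀ g : Edge n ⊕ Fin n → ℝ,
        press A (c 0) g = ∑ i, log (2 * cosh (β * √q * g (Sum.inr i))) := fun g => by
      have h1 : ∑ x : Fin n → Bool, exp (expo A (c 0) g x)
          = ∏ i, ∑ b : Bool, exp (β * √q * g (Sum.inr i) * spin b) := by
        rw [Fintype.prod_sum]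
        refine Finset.sum_congr rfl fun x _ => ?_
        rw [← exp_sum]; congr 1
        simp [expo, A, hc_def, jointA, Fintype.sum_sum_type]
      rw [press, h1, log_prod fun i _ => (Finset.sum_pos (fun b _ => exp_pos _) Finset.univ_nonempty).ne']
      refine Finset.sum_congr rfl fun i _ => ?_
      congr 1
      simp [spin, cosh_eq]; ring
    have hint : Integrable (fun z => log (2 * cosh (β * √q * z))) std := by
      refine Integrable.mono' ((integrable_const (log 2)).add (integrable_id_std.abs.const_mul |β * √q|))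
        (Measurable.aestronglyMeasurable (measurable_log.comp ((continuous_cosh.measurable.comp (measurable_id.const_mul _)).const_mul 2)))
        (Filter.Eventually.of_forall fun z => ?_)
      rw [Real.norm_of_nonneg (log_nonneg (by linarith [one_le_cosh (β * √q * z)]))]
      have h2 : cosh (β * √q * z) ≤ exp |β * √q * z| := by
        rw [← cosh_abs, ← cosh_add_sinh]; linarith [sinh_nonneg_iff.2 (abs_nonneg (β * √q * z))]
      have := log_le_log (by positivity) (mul_le_mul_of_nonneg_left h2 zero_le_two)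
      rw [log_mul two_ne_zero (exp_pos _).ne', log_exp] at this
      simpa [abs_mul] using this
    simp only [ψ, e]
    have hinti : ∀ i : Fin n, Integrable
        (fun g : Edge n ⊕ Fin n → ℝ => log (2 * cosh (β * √q * g (Sum.inr i)))) (stdPi (Edge n ⊕ Fin n)) :=
      fun i => (measurePreserving_coord (Sum.inr i : Edge n ⊕ Fin n)).integrable_comp_of_integrable hint
    rw [integral_finsetSum _ fun i _ => hinti i]
    have : ∀ i : Fin n, ∫ g, log (2 * cosh (β * √q * g (Sum.inr i))) ∂stdPi (Edge n ⊕ Fin n)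
        = ∫ z, log (2 * cosh (β * √q * z)) ∂std := fun i => by
      have hmp := measurePreserving_coord (Sum.inr i : Edge n ⊕ Fin n)
      rw [← hmp.map_eq, integral_map hmp.measurable.aemeasurable (by rw [hmp.map_eq]; exact hint.1)]
    simp [this]
  rw [hend, hstart] at key
  have hm := mul_le_mul_of_nonneg_left (mean_log_cosh_le (β * √q)) (Nat.cast_nonneg (α := ℝ) n)
  have h2 : (β * √q) ^ 2 = β ^ 2 * q := by rw [mul_pow, sq_sqrt hq]
  have h4 : (β * √q) ^ 4 = (β ^ 2 * q) ^ 2 := by rw [← h2]; ring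
  have h6 : (β * √q) ^ 6 = (β ^ 2 * q) ^ 3 := by rw [← h2]; ring
  rw [h2, h4, h6] at hm
  linarith

/-- The guaranteed loss against the annealed free energy. -/
noncomputable def deficit (β : ℝ) : ℝ := 9 / 512 * (1 - 1 / β ^ 2) ^ 3

theorem deficit_pos {β : ℝ} (hβ : 1 < β) : 0 < deficit β := by
  have : 1 / β ^ 2 < 1 := by rw [div_lt_one (by positivity)]; nlinarith
  exact mul_pos (by norm_num) (pow_pos (sub_pos.2 this) 3)

theorem deficit_mono {a b : ℝ} (ha : 1 < a) (hab : a ≤ b) : deficit a ≤ deficit b := by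
  have h0 : 1 / a ^ 2 ≤ 1 := by rw [div_le_one (by positivity)]; nlinarith
  have h1 : 1 / b ^ 2 ≤ 1 / a ^ 2 :=
    one_div_le_one_div_of_le (by positivity) (pow_le_pow_left₀ (by linarith) hab 2)
  unfold deficit
  gcongr

theorem free_deficit {β : ℝ} (hβ : 1 < β) (n : ℕ) :
    free n β ≤ n * (log 2 + β ^ 2 / 4 - deficit β) := by
  have hb : 0 < β ^ 2 - 1 := by nlinarith
  set q := 3 * (β ^ 2 - 1) / (8 * β ^ 4)
  have hq : 0 < q := by positivity
  have e : deficit β = β ^ 2 * (β ^ 2 - 1) * q ^ 2 / 8 := by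
    simp only [q, deficit]; field_simp; ring
  rw [e]
  refine (guerra n β q hq.le).trans ?_
  refine mul_le_mul_of_nonneg_left ?_ n.cast_nonneg
  have hq' : q * β ^ 4 = 3 * (β ^ 2 - 1) / 8 := by simp only [q]; field_simp
  have : (β ^ 2 * q) ^ 3 / 3 = β ^ 2 * q ^ 2 * (β ^ 2 - 1) / 8 := by
    linear_combination (β ^ 2 * q ^ 2 / 3) * hq'
  nlinarith

end Vale.Agent.P150
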