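import Vale.Agent.P150.Limit

/-!
# P150: variance bound for Lipschitz functions of independent Gaussian variables
-/

open MeasureTheory ProbabilityTheory Real Filter

namespace Vale.Agent.P150

theorem sq_decomp {Ω : Type*} {mΩ : MeasurableSpace Ω} {μ : Measure Ω} [IsProbabilityMeasure μ] {f : Ω → ℝ}
    (hf : MemLp f 2 μ) (c : ℝ) :
    ∫ x, (f x - c) ^ 2 ∂μ = ∫ x, (f x - ∫ y, f y ∂μ) ^ 2 ∂μ + ((∫ y, f y ∂μ) - c) ^ 2 := by
  set m := ∫ y, f y ∂μ
  have h1 : Integrable f μ := hf.integrable one_le_two
  have h2 : Integrable (fun x => (f x - m) ^ 2) μ := (hf.sub (memLp_const m)).integrable_sq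
  have h3 : Integrable (fun x => 2 * (m - c) * (f x - m)) μ := (h1.sub (integrable_const m)).const_mul _
  have e : ∀ x, (f x - c) ^ 2 = (f x - m) ^ 2 + 2 * (m - c) * (f x - m) + (m - c) ^ 2 := fun x => by ring
  simp only [e]
  have h23 : Integrable (fun x => (f x - m) ^ 2 + 2 * (m - c) * (f x - m)) μ := h2.add h3
  rw [integral_add h23 (integrable_const _), integral_add h2 h3, integral_const_mul,
    integral_sub h1 (integrable_const m)]
  simp [m]

theorem memLp_abs_std : MemLp (fun x : ℝ => |x|) 2 std := by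
  have h : MemLp id 2 (gaussianReal 0 1) := memLp_id_gaussianReal' 2 ENNReal.ofNat_ne_top
  exact h.norm

theorem memLp_lipschitz {κ : Type*} [Fintype κ] {f : (κ → ℝ) → ℝ} (hf : Measurable f) {L : ℝ}
    (hL : ∀ g g', |f g - f g'| ≤ L * ∑ k, |g k - g' k|) : MemLp f 2 (stdPi κ) := by
  have hk : ∀ k, MemLp (fun g : κ → ℝ => |g k|) 2 (stdPi κ) := fun k =>
    memLp_abs_std.comp_measurePreserving (measurePreserving_coord k)
  have hb : MemLp (fun g : κ → ℝ => |f 0| + L * ∑ k, |g k|) 2 (stdPi κ) := by
    refine MemLp.add (memLp_const |f 0|) (MemLp.const_mul ?_ L)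
    exact memLp_finsetSum Finset.univ fun k _ => hk k
  refine hb.mono' hf.aestronglyMeasurable (Eventually.of_forall fun g => ?_)
  have := hL g 0
  simp only [Pi.zero_apply, sub_zero] at this
  rw [Real.norm_eq_abs]
  linarith [abs_sub_abs_le_abs_sub (f g) (f 0)]

theorem variance_fin_le : ∀ (m : ℕ) (f : (Fin m → ℝ) → ℝ) (L : ℝ), Measurable f →
    (∀ g g', |f g - f g'| ≤ L * ∑ k, |g k - g' k|) →
    ∫ g, (f g - ∫ g', f g' ∂stdPi (Fin m)) ^ 2 ∂stdPi (Fin m) ≤ m * L ^ 2
  | 0, f, L, _, _ => by
    have e : ∀ g : Fin 0 → ℝ, f g = f 0 := fun g => by rw [Subsingleton.elim g 0]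
    simp_rw [e]
    simp
  | m + 1, f, L, hf, hL => by
    set e := (MeasurableEquiv.piFinSuccAbove (fun _ : Fin (m + 1) => ℝ) 0).symm with he
    have hmp : MeasurePreserving e (std.prod (stdPi (Fin m))) (stdPi (Fin (m + 1))) :=
      (measurePreserving_piFinSuccAbove (fun _ : Fin (m + 1) => std) 0).symm _
    have hsum : ∀ (y y' : ℝ) (z z' : Fin m → ℝ),
        |f (e (y, z)) - f (e (y', z'))| ≤ L * (|y - y'| + ∑ k, |z k - z' k|) := fun y y' z z' => by
      refine (hL _ _).trans (le_of_eq ?_)
      rw [Fin.sum_univ_succ]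
      simp [he, MeasurableEquiv.piFinSuccAbove, Fin.insertNthEquiv]
    have hF : MemLp (fun p => f (e p)) 2 (std.prod (stdPi (Fin m))) :=
      (memLp_lipschitz hf hL).comp_measurePreserving hmp
    have hmy : ∀ z, Measurable fun y => f (e (y, z)) := fun z =>
      hf.comp (e.measurable.comp (measurable_id.prodMk measurable_const))
    have hfy : ∀ z, MemLp (fun y => f (e (y, z))) 2 std := fun z => by
      have hb : MemLp (fun y : ℝ => |f (e (0, z))| + L * |y|) 2 std :=
        MemLp.add (memLp_const |f (e (0, z))|) (memLp_abs_std.const_mul L)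
      refine hb.mono' (hmy z).aestronglyMeasurable (Eventually.of_forall fun y => ?_)
      have := hsum y 0 z z
      simp only [sub_zero, sub_self, abs_zero, Finset.sum_const_zero, add_zero] at this
      rw [Real.norm_eq_abs]
      linarith [abs_sub_abs_le_abs_sub (f (e (y, z))) (f (e (0, z)))]
    set fbar := fun z => ∫ y, f (e (y, z)) ∂std with hfbar
    have hbarL : ∀ z z', |fbar z - fbar z'| ≤ L * ∑ k, |z k - z' k| := fun z z' => by
      simp only [hfbar]
      rw [← integral_sub ((hfy z).integrable one_le_two) ((hfy z').integrable one_le_two)]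
      refine (abs_integral_le_integral_abs).trans ((integral_mono
        (((hfy z).integrable one_le_two).sub ((hfy z').integrable one_le_two)).abs (integrable_const _)
        fun y => ?_).trans (le_of_eq (by simp : ∫ _, L * ∑ k, |z k - z' k| ∂std = _)))
      simpa using hsum y y z z'
    have hbarM : Measurable fbar := by
      have : StronglyMeasurable fun z => ∫ y, f (e (y, z)) ∂std :=
        (hf.comp e.measurable).stronglyMeasurable.integral_prod_left'
      exact this.measurable
    have ih := variance_fin_le m fbar L hbarM hbarL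
    have hmean : ∫ g, f g ∂stdPi (Fin (m + 1)) = ∫ z, fbar z ∂stdPi (Fin m) := by
      rw [← hmp.integral_comp e.measurableEmbedding, integral_prod_symm _ (hF.integrable one_le_two)]
    set M := ∫ z, fbar z ∂stdPi (Fin m)
    rw [← hmp.integral_comp e.measurableEmbedding, hmean,
      integral_prod_symm (fun p => (f (e p) - M) ^ 2) (hF.sub (memLp_const M)).integrable_sq]
    have hy : ∀ z, ∫ y, (f (e (y, z)) - M) ^ 2 ∂std ≤ L ^ 2 + (fbar z - M) ^ 2 := fun z => by
      have h1 : ∫ y, (f (e (y, z)) - fbar z) ^ 2 ∂std ≤ L ^ 2 := by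
        have h2 := sq_decomp (hfy z) (f (e (0, z)))
        have h3 : ∫ y, (f (e (y, z)) - f (e (0, z))) ^ 2 ∂std ≤ ∫ y, L ^ 2 * y ^ 2 ∂std := by
          refine integral_mono ((hfy z).sub (memLp_const _)).integrable_sq ((integrable_pow_std 2).const_mul _)
            fun y => ?_
          have := hsum y 0 z z
          simp only [sub_zero, sub_self, abs_zero, Finset.sum_const_zero, add_zero] at this
          rw [← sq_abs (f (e (y, z)) - f (e (0, z))), ← sq_abs y, ← mul_pow]
          exact pow_le_pow_left₀ (abs_nonneg _) this 2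
        rw [integral_const_mul, moment_succ 0] at h3
        simp at h3
        linarith [sq_nonneg ((∫ y, f (e (y, z)) ∂std) - f (e (0, z)))]
      rw [sq_decomp (hfy z) M]
      linarith
    have hbarI : Integrable (fun z => L ^ 2 + (fbar z - M) ^ 2) (stdPi (Fin m)) :=
      (integrable_const _).add ((memLp_lipschitz hbarM hbarL).sub (memLp_const M)).integrable_sq
    refine (integral_mono (hF.sub (memLp_const M)).integrable_sq.integral_prod_right hbarI hy).trans ?_
    have hsqI : Integrable (fun z => (fbar z - M) ^ 2) (stdPi (Fin m)) :=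
      ((memLp_lipschitz hbarM hbarL).sub (memLp_const M)).integrable_sq
    rw [integral_add (integrable_const _) hsqI]
    simp only [integral_const, probReal_univ, smul_eq_mul, one_mul]
    push_cast
    linarith

/-- Variance bound for Lipschitz functions of independent standard Gaussian variables. -/
theorem variance_lipschitz_le {κ : Type*} [Fintype κ] {f : (κ → ℝ) → ℝ} (hf : Measurable f) {L : ℝ}
    (hL : ∀ g g', |f g - f g'| ≤ L * ∑ k, |g k - g' k|) :
    ∫ g, (f g - ∫ g', f g' ∂stdPi κ) ^ 2 ∂stdPi κ ≤ Fintype.card κ * L ^ 2 := by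
  set σ := Fintype.equivFin κ
  have hmp := measurePreserving_reindex σ
  have hm : Measurable fun g : Fin (Fintype.card κ) → ℝ => f (g ∘ σ) := hf.comp hmp.measurable
  have h := variance_fin_le _ (fun g => f (g ∘ σ)) L hm fun g g' => (hL _ _).trans (le_of_eq (by
    rw [← σ.sum_comp (fun k => |g k - g' k|)]; rfl))
  have e : ∫ g, f (g ∘ σ) ∂stdPi (Fin (Fintype.card κ)) = ∫ g, f g ∂stdPi κ := by
    rw [← hmp.map_eq, integral_map hmp.measurable.aemeasurable hf.aestronglyMeasurable]
  rw [e] at h
  refine le_trans (le_of_eq ?_) h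
  rw [← hmp.map_eq, integral_map hmp.measurable.aemeasurable ((hf.sub_const _).pow_const 2).aestronglyMeasurable]

theorem press_le_of_dist {κ X : Type*} [Fintype κ] [Fintype X] [Nonempty X] {A : X → κ → ℝ}
    (hA : ∀ x k, A x k ^ 2 = 1) (γ : ℝ) (g g' : κ → ℝ) :
    |press A (fun _ => γ) g - press A (fun _ => γ) g'| ≤ |γ| * ∑ k, |g k - g' k| := by
  have key : ∀ g g' : κ → ℝ,
      press A (fun _ => γ) g ≤ press A (fun _ => γ) g' + |γ| * ∑ k, |g k - g' k| := fun g g' => by
    have hx : ∀ x, expo A (fun _ => γ) g x ≤ expo A (fun _ => γ) g' x + |γ| * ∑ k, |g k - g' k| := fun x => by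
      rw [expo, expo, Finset.mul_sum, ← Finset.sum_add_distrib]
      refine Finset.sum_le_sum fun k _ => ?_
      have h1 : |A x k| = 1 := by rcases sq_eq_one_iff.1 (hA x k) with h | h <;> simp [h]
      have := le_abs_self (γ * (g k - g' k) * A x k)
      rw [abs_mul, abs_mul, h1, mul_one] at this
      linarith
    rw [press, press, ← log_exp (|γ| * ∑ k, |g k - g' k|), ← log_mul (sum_exp_pos A _ g').ne' (exp_pos _).ne']
    refine log_le_log (sum_exp_pos A _ g) ?_
    rw [Finset.sum_mul]
    refine Finset.sum_le_sum fun x _ => ?_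
    rw [← exp_add]
    exact exp_le_exp.2 (hx x)
  refine abs_sub_le_iff.2 ⟨by linarith [key g g'], ?_⟩
  have := key g' g
  simp only [abs_sub_comm (g' _) (g _)] at this
  linarith

end Vale.Agent.P150
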