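import Vale.Agent.P150.Cavity

/-!
# P150: heat-bath dynamics is slow when the squared overlap is positive
-/

open MeasureTheory Real

namespace Vale.Agent.P150

variable {n : ℕ} {β : ℝ} {g : Edge n → ℝ}

theorem sum_update_pair (i : Fin n) (φ : (Fin n → Bool) → ℝ) :
    2 * ∑ x, φ x = ∑ x, (φ (Function.update x i true) + φ (Function.update x i false)) := by
  have hinv : Function.Involutive fun x : Fin n → Bool => Function.update x i (!x i) := fun x => by simp
  have h1 : ∑ x, φ (Function.update x i (!x i)) = ∑ x, φ x := Equiv.sum_comp hinv.toPerm φ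
  have h2 : ∀ x, φ (Function.update x i true) + φ (Function.update x i false)
      = φ x + φ (Function.update x i (!x i)) := fun x => by
    cases h : x i
    · conv_rhs => arg 1; rw [← Function.update_eq_self i x, h]
      simp [add_comm]
    · conv_rhs => arg 1; rw [← Function.update_eq_self i x, h]
      simp
  rw [Finset.sum_congr rfl fun x _ => h2 x, Finset.sum_add_distrib, h1, two_mul]

theorem condMat_mulVec (i : Fin n) (f : (Fin n → Bool) → ℝ) (x : Fin n → Bool) :
    (condMat n β g i).mulVec f x
      = (gibbs n β g (Function.update x i true) * f (Function.update x i true)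
          + gibbs n β g (Function.update x i false) * f (Function.update x i false))
        / (gibbs n β g (Function.update x i true) + gibbs n β g (Function.update x i false)) := by
  have hs : (Finset.univ.filter fun y : Fin n → Bool => ∀ j, j ≠ i → y j = x j)
      = {Function.update x i true, Function.update x i false} := by
    ext y
    simp only [Finset.mem_filter, Finset.mem_univ, true_and, Finset.mem_insert, Finset.mem_singleton]
    refine ⟨fun h => ?_, ?_⟩
    · have e : y = Function.update x i (y i) := funext fun j => by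
        by_cases hj : j = i
        · subst hj; simp
        · simp [hj, h j hj]
      cases hy : y i
      · exact Or.inr (hy ▸ e)
      · exact Or.inl (hy ▸ e)
    · rintro (rfl | rfl) j hj <;> simp [hj]
  have hne : Function.update x i true ≠ Function.update x i false := fun h => by
    simpa using congrFun h i
  simp only [Matrix.mulVec, dotProduct, condMat, ite_mul, zero_mul]
  rw [← Finset.sum_filter, hs, Finset.sum_pair hne]
  ring

/-- The inner product of `L²` of the Gibbs measure. -/
noncomputable def ip (n : ℕ) (β : ℝ) (g : Edge n → ℝ) (u v : (Fin n → Bool) → ℝ) : ℝ :=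
  ∑ x, gibbs n β g x * u x * v x

theorem ip_comm (u v : (Fin n → Bool) → ℝ) : ip n β g u v = ip n β g v u :=
  Finset.sum_congr rfl fun x _ => by ring

theorem ip_self_nonneg (u : (Fin n → Bool) → ℝ) : 0 ≤ ip n β g u u :=
  Finset.sum_nonneg fun x _ => by rw [mul_assoc]; exact mul_nonneg (gibbs_pos n β g x).le (mul_self_nonneg _)

theorem ip_sub_self (u v : (Fin n → Bool) → ℝ) :
    ip n β g (u - v) (u - v) = ip n β g u u - 2 * ip n β g u v + ip n β g v v := by
  simp only [ip, Finset.mul_sum, ← Finset.sum_sub_distrib, ← Finset.sum_add_distrib, Pi.sub_apply]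
  exact Finset.sum_congr rfl fun x _ => by ring

theorem cond_symm (i : Fin n) (u v : (Fin n → Bool) → ℝ) :
    ip n β g u ((condMat n β g i).mulVec v) = ip n β g v ((condMat n β g i).mulVec u) := by
  have key : ∀ u v : (Fin n → Bool) → ℝ, 2 * ip n β g u ((condMat n β g i).mulVec v)
      = ∑ x, (gibbs n β g (Function.update x i true) * u (Function.update x i true)
            + gibbs n β g (Function.update x i false) * u (Function.update x i false))
          * (gibbs n β g (Function.update x i true) * v (Function.update x i true)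
            + gibbs n β g (Function.update x i false) * v (Function.update x i false))
          / (gibbs n β g (Function.update x i true) + gibbs n β g (Function.update x i false)) := fun u v => by
    rw [ip, sum_update_pair i]
    refine Finset.sum_congr rfl fun x _ => ?_
    simp only [condMat_mulVec, Function.update_idem]
    ring
  have h1 := key u v
  have h2 := key v u
  have e : ∀ a b c : ℝ, a * b / c = b * a / c := fun a b c => by ring
  rw [Finset.sum_congr rfl fun x _ => e _ _ _] at h2
  linarith

theorem cond_idem (i : Fin n) (u : (Fin n → Bool) → ℝ) :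
    (condMat n β g i).mulVec ((condMat n β g i).mulVec u) = (condMat n β g i).mulVec u := by
  funext x
  have hp := add_pos (gibbs_pos n β g (Function.update x i true)) (gibbs_pos n β g (Function.update x i false))
  simp only [condMat_mulVec, Function.update_idem]
  field_simp

theorem cond_quad (i : Fin n) (u : (Fin n → Bool) → ℝ) :
    0 ≤ ip n β g u ((condMat n β g i).mulVec u) ∧
      ip n β g u ((condMat n β g i).mulVec u) ≤ ip n β g u u := by
  set w := (condMat n β g i).mulVec u with hw
  have h : ip n β g w w = ip n β g u w := by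
    calc ip n β g w w = ip n β g w ((condMat n β g i).mulVec u) := rfl
      _ = ip n β g u ((condMat n β g i).mulVec w) := cond_symm i w u
      _ = ip n β g u w := by rw [hw, cond_idem]
  refine ⟨h ▸ ip_self_nonneg w, ?_⟩
  have := ip_self_nonneg (β := β) (g := g) (u - w)
  rw [ip_sub_self, h] at this
  linarith

/-- The averaged one-site update. -/
noncomputable def stepMat (n : ℕ) (β : ℝ) (g : Edge n → ℝ) : Matrix (Fin n → Bool) (Fin n → Bool) ℝ :=
  (n : ℝ)⁻¹ • ∑ i, condMat n β g i

theorem step_mulVec (u : (Fin n → Bool) → ℝ) (x : Fin n → Bool) :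
    (stepMat n β g).mulVec u x = (n : ℝ)⁻¹ * ∑ i, (condMat n β g i).mulVec u x := by
  simp [stepMat, Matrix.smul_mulVec, Matrix.sum_mulVec]

theorem ip_step (u v : (Fin n → Bool) → ℝ) :
    ip n β g u ((stepMat n β g).mulVec v) = (n : ℝ)⁻¹ * ∑ i, ip n β g u ((condMat n β g i).mulVec v) := by
  simp only [ip, step_mulVec, Finset.mul_sum]
  rw [Finset.sum_comm]
  exact Finset.sum_congr rfl fun i _ => Finset.sum_congr rfl fun x _ => by ring

theorem step_symm (u v : (Fin n → Bool) → ℝ) :
    ip n β g u ((stepMat n β g).mulVec v) = ip n β g ((stepMat n β g).mulVec u) v := by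
  rw [ip_comm ((stepMat n β g).mulVec u) v, ip_step, ip_step]
  simp only [cond_symm _ u v]

theorem step_quad (hn : 0 < n) (u : (Fin n → Bool) → ℝ) :
    0 ≤ ip n β g u ((stepMat n β g).mulVec u) ∧ ip n β g u ((stepMat n β g).mulVec u) ≤ ip n β g u u := by
  have hn' : (0 : ℝ) < n := by exact_mod_cast hn
  rw [ip_step]
  refine ⟨mul_nonneg (inv_nonneg.2 hn'.le) (Finset.sum_nonneg fun i _ => (cond_quad i u).1), ?_⟩
  rw [inv_mul_le_iff₀ hn']
  refine (Finset.sum_le_sum fun i _ => (cond_quad i u).2).trans (le_of_eq ?_)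
  simp

/-- The deficit `⟨u, u⟩ - ⟨u, K u⟩`. -/
noncomputable def stepForm (n : ℕ) (β : ℝ) (g : Edge n → ℝ) (u : (Fin n → Bool) → ℝ) : ℝ :=
  ip n β g u u - ip n β g u ((stepMat n β g).mulVec u)

theorem stepForm_mulVec_le (hn : 0 < n) (u : (Fin n → Bool) → ℝ) :
    stepForm n β g ((stepMat n β g).mulVec u) ≤ stepForm n β g u := by
  set K := stepMat n β g
  set v := u - K.mulVec u with hv
  have h1 := ip_self_nonneg (β := β) (g := g) v
  have h2 := (step_quad (β := β) (g := g) hn v).1
  have e : ip n β g v (K.mulVec v) = ip n β g u (K.mulVec u)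
      - 2 * ip n β g (K.mulVec u) (K.mulVec u) + ip n β g (K.mulVec u) (K.mulVec (K.mulVec u)) := by
    have h3 := step_symm (β := β) (g := g) u (K.mulVec u)
    rw [hv, Matrix.mulVec_sub]
    simp only [ip, Pi.sub_apply] at h3 ⊢
    rw [two_mul]
    nth_rewrite 1 [← h3]
    simp only [← Finset.sum_add_distrib, ← Finset.sum_sub_distrib]
    exact Finset.sum_congr rfl fun x _ => by ring
  rw [hv, ip_sub_self] at h1
  unfold stepForm
  linarith

theorem ip_pow (u : (Fin n → Bool) → ℝ) (a b : ℕ) :
    ip n β g u ((stepMat n β g ^ (a + b)).mulVec u)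
      = ip n β g ((stepMat n β g ^ a).mulVec u) ((stepMat n β g ^ b).mulVec u) := by
  induction a generalizing b with
  | zero => simp
  | succ a ih =>
    rw [show a + 1 + b = a + (b + 1) by ring, ih, pow_succ', pow_succ', ← Matrix.mulVec_mulVec,
      ← Matrix.mulVec_mulVec, step_symm]

theorem ip_pow_le (hn : 0 < n) (u : (Fin n → Bool) → ℝ) (k : ℕ) :
    ip n β g u u - ip n β g u ((stepMat n β g ^ k).mulVec u) ≤ k * stepForm n β g u := by
  have hmono : ∀ m, stepForm n β g ((stepMat n β g ^ m).mulVec u) ≤ stepForm n β g u := by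
    intro m
    induction m with
    | zero => simp
    | succ m ih =>
      rw [pow_succ', ← Matrix.mulVec_mulVec]
      exact (stepForm_mulVec_le hn _).trans ih
  have hterm : ∀ j, ip n β g u ((stepMat n β g ^ j).mulVec u) - ip n β g u ((stepMat n β g ^ (j + 1)).mulVec u)
      ≤ stepForm n β g u := fun j => by
    rcases Nat.even_or_odd' j with ⟨m, rfl | rfl⟩
    · rw [show 2 * m = m + m by ring, ip_pow, show m + m + 1 = m + (m + 1) by ring, ip_pow, pow_succ',
        ← Matrix.mulVec_mulVec]
      exact hmono m
    · rw [show 2 * m + 1 = m + (m + 1) by ring, ip_pow, show m + (m + 1) + 1 = (m + 1) + (m + 1) by ring,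
        ip_pow, pow_succ', ← Matrix.mulVec_mulVec]
      refine le_trans ?_ (hmono m)
      have h := ip_self_nonneg (β := β) (g := g)
        ((stepMat n β g ^ m).mulVec u - (stepMat n β g).mulVec ((stepMat n β g ^ m).mulVec u))
      rw [ip_sub_self] at h
      unfold stepForm
      linarith
  induction k with
  | zero => simp
  | succ k ih => push_cast; linarith [hterm k]

theorem condMat_nonneg (i : Fin n) (x y : Fin n → Bool) : 0 ≤ condMat n β g i x y := by
  rw [condMat]
  split_ifs
  · exact div_nonneg (gibbs_pos n β g y).le (add_pos (gibbs_pos n β g _) (gibbs_pos n β g _)).le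
  · exact le_rfl

theorem step_one (hn : 0 < n) : (stepMat n β g).mulVec (fun _ => 1) = fun _ => 1 := by
  funext x
  have hn' : (n : ℝ) ≠ 0 := by positivity
  have h : ∀ i, (condMat n β g i).mulVec (fun _ => 1) x = 1 := fun i => by
    rw [condMat_mulVec, mul_one, mul_one,
      div_self (add_pos (gibbs_pos n β g _) (gibbs_pos n β g _)).ne']
  simp [step_mulVec, h, hn']

theorem step_stationary (hn : 0 < n) (u : (Fin n → Bool) → ℝ) :
    ip n β g (fun _ => 1) ((stepMat n β g).mulVec u) = ip n β g (fun _ => 1) u := by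
  rw [step_symm, step_one hn]

theorem dirichlet_eq (u : (Fin n → Bool) → ℝ) :
    dirichlet n β g u = ∑ i, (ip n β g u u - ip n β g u ((condMat n β g i).mulVec u)) := by
  simp only [dirichlet, generator, ip, Matrix.sum_mulVec, Matrix.sub_mulVec, Matrix.one_mulVec,
    Finset.sum_apply, Pi.sub_apply, Finset.mul_sum, ← Finset.sum_sub_distrib]
  rw [Finset.sum_comm, ← Finset.sum_neg_distrib]
  exact Finset.sum_congr rfl fun i _ => by
    rw [← Finset.sum_neg_distrib]; exact Finset.sum_congr rfl fun x _ => by ring

theorem dirichlet_eq_stepForm (hn : 0 < n) (u : (Fin n → Bool) → ℝ) :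
    dirichlet n β g u = n * stepForm n β g u := by
  have hn' : (n : ℝ) ≠ 0 := by positivity
  rw [dirichlet_eq, stepForm, ip_step, Finset.sum_sub_distrib]
  simp
  field_simp

section series
open scoped Matrix.Norms.Operator

theorem kernel_hasSum (hn : 0 < n) (t : ℝ) (x y : Fin n → Bool) :
    HasSum (fun k : ℕ => exp (-(t * n)) * ((t * n) ^ k / k.factorial) * (stepMat n β g ^ k) x y)
      (kernel n β g t x y) := by
  set K := stepMat n β g with hK
  have hn' : (n : ℝ) ≠ 0 := by positivity
  have hL : t • generator n β g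
      = (-(t * n)) • (1 : Matrix (Fin n → Bool) (Fin n → Bool) ℝ) + (t * n) • K := by
    rw [hK, stepMat, smul_smul, mul_assoc, mul_inv_cancel₀ hn', mul_one, generator, Finset.sum_sub_distrib,
      Finset.sum_const, Finset.card_univ, Fintype.card_fin, smul_sub, ← Nat.cast_smul_eq_nsmul ℝ, smul_smul,
      neg_smul]
    abel
  have hdiag : NormedSpace.exp ((-(t * n)) • (1 : Matrix (Fin n → Bool) (Fin n → Bool) ℝ))
      = exp (-(t * n)) • (1 : Matrix (Fin n → Bool) (Fin n → Bool) ℝ) := by
    rw [Matrix.smul_one_eq_diagonal, Matrix.exp_diagonal, Matrix.smul_one_eq_diagonal]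
    congr 1
    funext z
    rw [Pi.coe_exp, ← congrFun Real.exp_eq_exp_ℝ]
  have hs := (NormedSpace.exp_series_hasSum_exp' (𝕂 := ℝ) ((t * n) • K)).const_smul (exp (-(t * n)))
  have hker : kernel n β g t = exp (-(t * n)) • NormedSpace.exp ((t * n) • K) := by
    rw [kernel, hL, Matrix.exp_add_of_commute _ _ ((Commute.one_left _).smul_left _), hdiag, smul_mul_assoc,
      one_mul]
  rw [hker]
  have := Pi.hasSum.1 (Pi.hasSum.1 hs x) y
  refine this.congr_fun fun k => ?_
  simp only [Matrix.smul_apply, smul_pow, smul_eq_mul]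
  ring

end series

/-- The Poisson weights. -/
noncomputable def poisW (s : ℝ) (k : ℕ) : ℝ := exp (-s) * (s ^ k / k.factorial)

theorem poisW_hasSum (s : ℝ) : HasSum (poisW s) 1 := by
  have := (NormedSpace.expSeries_div_hasSum_exp (𝔸 := ℝ) s).mul_left (exp (-s))
  rw [← congrFun Real.exp_eq_exp_ℝ s, ← exp_add, neg_add_cancel, exp_zero] at this
  exact this

theorem poisW_mean (s : ℝ) : HasSum (fun k : ℕ => poisW s k * k) s := by
  rw [← hasSum_nat_add_iff' 1]
  simp only [Finset.range_one, Finset.sum_singleton, Nat.cast_zero, mul_zero, sub_zero]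
  have := (poisW_hasSum s).mul_left s
  rw [mul_one] at this
  refine this.congr_fun fun k => ?_
  simp only [poisW, Nat.factorial_succ, Nat.cast_mul, pow_succ]
  push_cast
  field_simp

theorem kernel_mulVec (hn : 0 < n) (t : ℝ) (u : (Fin n → Bool) → ℝ) (x : Fin n → Bool) :
    HasSum (fun k => poisW (t * n) k * (stepMat n β g ^ k).mulVec u x) ((kernel n β g t).mulVec u x) := by
  simp only [Matrix.mulVec, dotProduct, Finset.mul_sum]
  refine hasSum_sum fun y _ => ?_
  simpa [poisW, mul_assoc] using (kernel_hasSum (β := β) (g := g) hn t x y).mul_right (u y)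

theorem kernel_ip (hn : 0 < n) (t : ℝ) (u v : (Fin n → Bool) → ℝ) :
    HasSum (fun k => poisW (t * n) k * ip n β g u ((stepMat n β g ^ k).mulVec v))
      (ip n β g u ((kernel n β g t).mulVec v)) := by
  simp only [ip, Finset.mul_sum]
  refine hasSum_sum fun x _ => ?_
  refine ((kernel_mulVec hn t v x).mul_left (gibbs n β g x * u x)).congr_fun fun k => ?_
  ring

theorem kernel_ip_le (hn : 0 < n) {t : ℝ} (ht : 0 ≤ t) (u : (Fin n → Bool) → ℝ) :
    ip n β g u u - ip n β g u ((kernel n β g t).mulVec u) ≤ t * dirichlet n β g u := by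
  rw [dirichlet_eq_stepForm hn, ← mul_assoc]
  have h1 := ((poisW_hasSum (t * n)).mul_right (ip n β g u u)).sub (kernel_ip (β := β) (g := g) hn t u u)
  rw [one_mul] at h1
  refine hasSum_le (fun k => ?_) h1 ((poisW_mean (t * n)).mul_right (stepForm n β g u))
  rw [← mul_sub, mul_assoc]
  exact mul_le_mul_of_nonneg_left (ip_pow_le hn u k)
    (mul_nonneg (exp_pos _).le (div_nonneg (pow_nonneg (mul_nonneg ht n.cast_nonneg) k) (Nat.cast_nonneg _)))

theorem kernel_one (hn : 0 < n) (t : ℝ) : (kernel n β g t).mulVec (fun _ => 1) = fun _ => 1 := by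
  funext x
  have hk : ∀ k, (stepMat n β g ^ k).mulVec (fun _ => (1 : ℝ)) = fun _ => 1 := by
    intro k
    induction k with
    | zero => simp
    | succ k ih => rw [pow_succ, ← Matrix.mulVec_mulVec, step_one hn, ih]
  refine (kernel_mulVec (β := β) (g := g) hn t (fun _ => (1 : ℝ)) x).unique ?_
  simpa [hk] using poisW_hasSum (t * n)

theorem kernel_stationary (hn : 0 < n) (t : ℝ) (u : (Fin n → Bool) → ℝ) :
    ip n β g (fun _ => 1) ((kernel n β g t).mulVec u) = ip n β g (fun _ => 1) u := by
  have hk : ∀ k, ip n β g (fun _ => 1) ((stepMat n β g ^ k).mulVec u) = ip n β g (fun _ => 1) u := by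
    intro k
    induction k with
    | zero => simp
    | succ k ih => rw [pow_succ', ← Matrix.mulVec_mulVec, step_stationary hn, ih]
  refine (kernel_ip (β := β) (g := g) hn t (fun _ => (1 : ℝ)) u).unique ?_
  simpa [hk] using (poisW_hasSum (t * n)).mul_right (ip n β g (fun _ => 1) u)

theorem sum_gibbs_kernel (hn : 0 < n) (t : ℝ) (y : Fin n → Bool) :
    ∑ x, gibbs n β g x * kernel n β g t x y = gibbs n β g y := by
  classical
  have := kernel_stationary (β := β) (g := g) hn t (fun z => if z = y then 1 else 0)
  simpa [ip, Matrix.mulVec, dotProduct] using this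

theorem sum_kernel (hn : 0 < n) (t : ℝ) (x : Fin n → Bool) : ∑ y, kernel n β g t x y = 1 := by
  simpa [Matrix.mulVec, dotProduct] using congrFun (kernel_one (β := β) (g := g) hn t) x

theorem tv_boost (hn : 0 < n) {t : ℝ} (h : ∀ x, tvDist n β g t x ≤ 1 / 4) :
    ∀ k : ℕ, 1 ≤ k → ∀ x, ∑ y, |kernel n β g (k * t) x y - gibbs n β g y| ≤ (1 / 2 : ℝ) ^ k := by
  have h1 : ∀ x, ∑ y, |kernel n β g t x y - gibbs n β g y| ≤ 1 / 2 := fun x => by
    have := h x; rw [tvDist] at this; linarith
  intro k hk
  induction k, hk using Nat.le_induction with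
  | base => simpa using h1
  | succ k hk ih =>
    intro x
    have hkt : kernel n β g (((k + 1 : ℕ) : ℝ) * t) = kernel n β g (k * t) * kernel n β g t := by
      simp only [kernel, mul_smul, Nat.cast_smul_eq_nsmul]
      rw [Matrix.exp_nsmul, Matrix.exp_nsmul, pow_succ]
    have e : ∀ y, kernel n β g (((k + 1 : ℕ) : ℝ) * t) x y - gibbs n β g y
        = ∑ z, (kernel n β g (k * t) x z - gibbs n β g z) * (kernel n β g t z y - gibbs n β g y) := fun y => by
      simp only [hkt, Matrix.mul_apply, sub_mul, mul_sub, Finset.sum_sub_distrib, ← Finset.sum_mul,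
        sum_gibbs_kernel hn, sum_gibbs, sum_kernel hn]
      ring
    simp only [e]
    calc ∑ y, |∑ z, (kernel n β g (k * t) x z - gibbs n β g z) * (kernel n β g t z y - gibbs n β g y)|
        ≤ ∑ y, ∑ z, |kernel n β g (k * t) x z - gibbs n β g z| * |kernel n β g t z y - gibbs n β g y| := by
          refine Finset.sum_le_sum fun y _ => (Finset.abs_sum_le_sum_abs _ _).trans (le_of_eq ?_)
          exact Finset.sum_congr rfl fun z _ => abs_mul _ _
      _ = ∑ z, |kernel n β g (k * t) x z - gibbs n β g z| * ∑ y, |kernel n β g t z y - gibbs n β g y| := by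
          rw [Finset.sum_comm]; simp only [Finset.mul_sum]
      _ ≤ ∑ z, |kernel n β g (k * t) x z - gibbs n β g z| * (1 / 2) :=
          Finset.sum_le_sum fun z _ => mul_le_mul_of_nonneg_left (h1 z) (abs_nonneg _)
      _ ≤ (1 / 2) ^ k * (1 / 2) := by
          rw [← Finset.sum_mul]; exact mul_le_mul_of_nonneg_right (ih x) (by norm_num)
      _ = _ := by rw [pow_succ]

/-- The linear statistic with coefficients `v`. -/
noncomputable def linStat (v : Fin n → ℝ) (x : Fin n → Bool) : ℝ := ∑ j, v j * spin (x j)

theorem mean_linStat (v : Fin n → ℝ) : ∑ x, gibbs n β g x * linStat v x = 0 := by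
  have hinv : Function.Involutive fun (x : Fin n → Bool) j => !x j := fun x => by simp
  have h := Equiv.sum_comp hinv.toPerm fun x => gibbs n β g x * linStat v x
  have e : ∀ x : Fin n → Bool, gibbs n β g (fun j => !x j) * linStat v (fun j => !x j)
      = -(gibbs n β g x * linStat v x) := fun x => by
    have hE : energy n g (fun j => !x j) = energy n g x := by simp [energy, spin_not]
    rw [gibbs, hE, linStat]
    simp [gibbs, linStat, spin_not, Finset.sum_neg_distrib]
  simp only [Function.Involutive.coe_toPerm, e, Finset.sum_neg_distrib] at h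
  linarith

theorem dirichlet_linStat_le (v : Fin n → ℝ) : dirichlet n β g (linStat v) ≤ ∑ i, v i ^ 2 := by
  rw [dirichlet_eq]
  refine Finset.sum_le_sum fun i _ => ?_
  have e : 2 * (ip n β g (linStat v) (linStat v) - ip n β g (linStat v) ((condMat n β g i).mulVec (linStat v)))
      = ∑ x, gibbs n β g (Function.update x i true) * gibbs n β g (Function.update x i false)
          * (2 * v i) ^ 2
          / (gibbs n β g (Function.update x i true) + gibbs n β g (Function.update x i false)) := by
    rw [ip, ip, ← Finset.sum_sub_distrib, sum_update_pair i]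
    refine Finset.sum_congr rfl fun x _ => ?_
    have hp := (add_pos (gibbs_pos n β g (Function.update x i true))
      (gibbs_pos n β g (Function.update x i false))).ne'
    have hd : linStat v (Function.update x i true) - linStat v (Function.update x i false) = 2 * v i := by
      rw [linStat, linStat, ← Finset.sum_sub_distrib, Finset.sum_eq_single i]
      · simp [spin]; ring
      · intro j _ hj; simp [hj]
      · simp
    simp only [condMat_mulVec, Function.update_idem]
    rw [← hd]
    field_simp
    ring
  have hb : ∑ x, gibbs n β g (Function.update x i true) * gibbs n β g (Function.update x i false)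
          * (2 * v i) ^ 2
          / (gibbs n β g (Function.update x i true) + gibbs n β g (Function.update x i false))
      ≤ v i ^ 2 * ∑ x, (gibbs n β g (Function.update x i true) + gibbs n β g (Function.update x i false)) := by
    rw [Finset.mul_sum]
    refine Finset.sum_le_sum fun x _ => ?_
    rw [div_le_iff₀ (add_pos (gibbs_pos n β g _) (gibbs_pos n β g _))]
    nlinarith [mul_nonneg (sq_nonneg (v i))
      (sq_nonneg (gibbs n β g (Function.update x i true) - gibbs n β g (Function.update x i false)))]
  rw [← sum_update_pair, sum_gibbs] at hb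
  linarith

theorem exists_test (hn : 0 < n) : ∃ v : Fin n → ℝ, 0 < ∑ j, v j ^ 2 ∧
    n * overlapSq n β g * ∑ j, v j ^ 2 ≤ ip n β g (linStat v) (linStat v) := by
  have hne : (Finset.univ : Finset (Fin n)).Nonempty := ⟨⟨0, hn⟩, Finset.mem_univ _⟩
  obtain ⟨i, -, hi⟩ := Finset.exists_max_image _ (fun i => ∑ j, corr n β g i j ^ 2) hne
  have hn' : (0 : ℝ) < n := by exact_mod_cast hn
  set s := ∑ j, corr n β g i j ^ 2
  set f := linStat (corr n β g i) with hf
  have hs : n * overlapSq n β g ≤ s := by
    have h := Finset.sum_le_sum (s := Finset.univ) (fun k hk => hi k hk)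
    rw [Finset.sum_const, Finset.card_univ, Fintype.card_fin, nsmul_eq_mul] at h
    rw [overlapSq, mul_div_assoc', div_le_iff₀ (by positivity)]
    nlinarith [mul_le_mul_of_nonneg_left h hn'.le]
  have hdiag : corr n β g i i = 1 := by simp [corr, spin_mul_self, sum_gibbs]
  have hs1 : 1 ≤ s := by
    have := Finset.single_le_sum (f := fun j => corr n β g i j ^ 2) (fun j _ => sq_nonneg _) (Finset.mem_univ i)
    simpa [hdiag] using this
  refine ⟨corr n β g i, zero_lt_one.trans_le hs1, ?_⟩
  -- Cauchy-Schwarz against the spin at `i`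
  have e : s = ∑ x, (√(gibbs n β g x) * spin (x i)) * (√(gibbs n β g x) * f x) := by
    simp only [s, hf, linStat, Finset.mul_sum]
    rw [Finset.sum_comm]
    refine Finset.sum_congr rfl fun j _ => ?_
    rw [sq]
    nth_rewrite 2 [corr]
    rw [Finset.mul_sum]
    refine Finset.sum_congr rfl fun x _ => ?_
    linear_combination (-(corr n β g i j * spin (x i) * spin (x j))) * sq_sqrt (gibbs_pos n β g x).le
  have hcs := Finset.sum_mul_sq_le_sq_mul_sq Finset.univ (fun x => √(gibbs n β g x) * spin (x i))
    fun x => √(gibbs n β g x) * f x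
  rw [← e] at hcs
  have h1 : ∑ x, (√(gibbs n β g x) * spin (x i)) ^ 2 = 1 := by
    simp [mul_pow, spin_sq, sq_sqrt (gibbs_pos n β g _).le, sum_gibbs]
  have h2 : ∑ x, (√(gibbs n β g x) * f x) ^ 2 = ip n β g f f :=
    Finset.sum_congr rfl fun x _ => by rw [mul_pow, sq_sqrt (gibbs_pos n β g x).le]; ring
  rw [h1, h2, one_mul] at hcs
  nlinarith [mul_le_mul_of_nonneg_right hs (zero_le_one.trans hs1)]

theorem gap_le (hn : 0 < n) (hQ : 0 < overlapSq n β g) : gap n β g ≤ 1 / (n * overlapSq n β g) := by
  obtain ⟨v, hv, hvar⟩ := exists_test (β := β) (g := g) hn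
  have hn' : (0 : ℝ) < n := by exact_mod_cast hn
  have hV : gibbsVar n β g (linStat v) = ip n β g (linStat v) (linStat v) := by
    rw [gibbsVar, mean_linStat]
    simp only [ip, ne_eq, OfNat.ofNat_ne_zero, not_false_eq_true, zero_pow, sub_zero]
    exact Finset.sum_congr rfl fun x _ => by ring
  have hpos : 0 < gibbsVar n β g (linStat v) := hV ▸ lt_of_lt_of_le (by positivity) hvar
  have hbdd : BddBelow (Set.range fun f : {f : (Fin n → Bool) → ℝ // 0 < gibbsVar n β g f} =>
      dirichlet n β g f.1 / gibbsVar n β g f.1) := by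
    refine ⟨0, ?_⟩
    rintro _ ⟨f, rfl⟩
    refine div_nonneg ?_ f.2.le
    rw [dirichlet_eq]
    exact Finset.sum_nonneg fun i _ => sub_nonneg.2 (cond_quad i f.1).2
  refine (ciInf_le hbdd ⟨linStat v, hpos⟩).trans ?_
  rw [div_le_div_iff₀ hpos (by positivity), hV, one_mul]
  nlinarith [dirichlet_linStat_le (β := β) (g := g) v,
    mul_nonneg hn'.le hQ.le]

theorem tv_gt (hn : 0 < n) {c t : ℝ} (hQ : c ≤ overlapSq n β g) {k : ℕ} (hk : 1 ≤ k)
    (hkc : (1 / 2 : ℝ) ^ k < c / 2) (ht0 : 0 ≤ t) (ht : k * t ≤ c / 2 * n) :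
    ∃ x, 1 / 4 < tvDist n β g t x := by
  by_contra hcon
  push Not at hcon
  have hb := tv_boost hn hcon k hk
  obtain ⟨v, hv, hvar⟩ := exists_test (β := β) (g := g) hn
  have hn' : (0 : ℝ) < n := by exact_mod_cast hn
  set f := linStat v
  set V := ∑ j, v j ^ 2
  have hf : ∀ x, |f x| ≤ ∑ j, |v j| := fun x => (Finset.abs_sum_le_sum_abs _ _).trans
    (le_of_eq (Finset.sum_congr rfl fun j _ => by rw [abs_mul, abs_spin, mul_one]))
  have hM : (∑ j, |v j|) * (∑ j, |v j|) ≤ n * V := by
    have := sq_sum_le_card_mul_sum_sq (s := Finset.univ) (f := fun j => |v j|)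
    simpa [sq, V] using this
  have hP : ∀ x, |(kernel n β g (k * t)).mulVec f x| ≤ (1 / 2) ^ k * ∑ j, |v j| := fun x => by
    have e : (kernel n β g (k * t)).mulVec f x = ∑ y, (kernel n β g (k * t) x y - gibbs n β g y) * f y := by
      simp only [sub_mul, Finset.sum_sub_distrib, Matrix.mulVec, dotProduct]
      rw [mean_linStat, sub_zero]
    rw [e]
    refine (Finset.abs_sum_le_sum_abs _ _).trans ?_
    calc ∑ y, |(kernel n β g (k * t) x y - gibbs n β g y) * f y|
        ≤ ∑ y, |kernel n β g (k * t) x y - gibbs n β g y| * ∑ j, |v j| :=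
          Finset.sum_le_sum fun y _ => by rw [abs_mul]; exact mul_le_mul_of_nonneg_left (hf y) (abs_nonneg _)
      _ ≤ _ := by
          rw [← Finset.sum_mul]
          exact mul_le_mul_of_nonneg_right (hb x) (Finset.sum_nonneg fun j _ => abs_nonneg _)
  have hip : ip n β g f ((kernel n β g (k * t)).mulVec f) ≤ (1 / 2) ^ k * (n * V) := by
    calc ip n β g f ((kernel n β g (k * t)).mulVec f)
        ≤ ∑ x, gibbs n β g x * ((1 / 2) ^ k * ((∑ j, |v j|) * ∑ j, |v j|)) := by
          refine Finset.sum_le_sum fun x _ => ?_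
          rw [mul_assoc]
          refine mul_le_mul_of_nonneg_left ?_ (gibbs_pos n β g x).le
          rw [mul_left_comm]
          refine (le_abs_self _).trans ?_
          rw [abs_mul]
          exact mul_le_mul (hf x) (hP x) (abs_nonneg _) (Finset.sum_nonneg fun j _ => abs_nonneg _)
      _ ≤ _ := by
          rw [← Finset.sum_mul, sum_gibbs, one_mul]
          exact mul_le_mul_of_nonneg_left hM (by positivity)
  have hkt : 0 ≤ (k : ℝ) * t := by positivity
  have h1 := kernel_ip_le (β := β) (g := g) hn hkt f
  have h2 := mul_le_mul_of_nonneg_left (dirichlet_linStat_le (β := β) (g := g) v) hkt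
  nlinarith [mul_lt_mul_of_pos_right hkc (mul_pos hn' hv), mul_le_mul_of_nonneg_right ht hv.le,
    mul_le_mul_of_nonneg_right hQ (mul_pos hn' hv).le]

end Vale.Agent.P150
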