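import Vale.Agent.P150.Guerra

/-!
# P150: the cavity bound and non-vanishing of the averaged squared overlap
-/

open MeasureTheory ProbabilityTheory Real

namespace Vale.Agent.P150

variable {n : ℕ}

/-- The two-point function. -/
noncomputable def corr (n : ℕ) (β : ℝ) (g : Edge n → ℝ) (i j : Fin n) : ℝ :=
  ∑ x, gibbs n β g x * (spin (x i) * spin (x j))

/-- The Gibbs average of the squared overlap. -/
noncomputable def overlapSq (n : ℕ) (β : ℝ) (g : Edge n → ℝ) : ℝ :=
  (∑ i, ∑ j, corr n β g i j ^ 2) / (n : ℝ) ^ 2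

theorem expo_pair (n : ℕ) (β : ℝ) (g : Edge n → ℝ) (x : Fin n → Bool) :
    expo (pairA n) (fun _ => β / √n) g x = β * energy n g x := by
  rw [expo, energy, Finset.sum_div, Finset.mul_sum]
  exact Finset.sum_congr rfl fun e _ => by rw [pairA]; ring

theorem gibbs_pos (n : ℕ) (β : ℝ) (g : Edge n → ℝ) (x : Fin n → Bool) : 0 < gibbs n β g x :=
  div_pos (exp_pos _) (Finset.sum_pos (fun _ _ => exp_pos _) Finset.univ_nonempty)

theorem sum_gibbs (n : ℕ) (β : ℝ) (g : Edge n → ℝ) : ∑ x, gibbs n β g x = 1 := by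
  rw [show ∑ x, gibbs n β g x
      = (∑ x, exp (β * energy n g x)) / ∑ y, exp (β * energy n g y) from (Finset.sum_div _ _ _).symm]
  exact div_self (Finset.sum_pos (fun _ _ => exp_pos _) Finset.univ_nonempty).ne'

theorem abs_corr_le (n : ℕ) (β : ℝ) (g : Edge n → ℝ) (i j : Fin n) : |corr n β g i j| ≤ 1 := by
  rw [← sum_gibbs n β g]
  refine (Finset.abs_sum_le_sum_abs _ _).trans (Finset.sum_le_sum fun x _ => le_of_eq ?_)
  rw [abs_mul, abs_mul, abs_spin, abs_spin, abs_of_pos (gibbs_pos n β g x)]; ring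

theorem overlapSq_mem (n : ℕ) (β : ℝ) (g : Edge n → ℝ) : overlapSq n β g ∈ Set.Icc 0 1 := by
  refine ⟨div_nonneg (Finset.sum_nonneg fun i _ => Finset.sum_nonneg fun j _ => sq_nonneg _) (sq_nonneg _),
    div_le_one_of_le₀ ?_ (sq_nonneg _)⟩
  calc ∑ i, ∑ j, corr n β g i j ^ 2 ≤ ∑ _i : Fin n, ∑ _j : Fin n, (1 : ℝ) :=
        Finset.sum_le_sum fun i _ => Finset.sum_le_sum fun j _ =>
          (sq_le_one_iff_abs_le_one _).2 (abs_corr_le n β g i j)
    _ = _ := by simp [sq]

theorem measurable_overlapSq (n : ℕ) (β : ℝ) : Measurable (overlapSq n β) := by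
  unfold overlapSq corr gibbs energy; fun_prop

theorem integrable_overlapSq (n : ℕ) (β : ℝ) : Integrable (overlapSq n β) (stdPi (Edge n)) :=
  Integrable.of_bound (measurable_overlapSq n β).aestronglyMeasurable 1 (Filter.Eventually.of_forall fun g => by
    rw [Real.norm_of_nonneg (overlapSq_mem n β g).1]; exact (overlapSq_mem n β g).2)

/-- Convexity of the pressure in the coupling strength. -/
theorem mean_press_ge {κ X : Type*} [Fintype κ] [Fintype X] [Nonempty X] {A : X → κ → ℝ}
    (hA : ∀ x k, A x k ^ 2 = 1) {γ γ' : ℝ} (h0 : 0 ≤ γ) (h : γ ≤ γ') :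
    (∫ g, press A (fun _ => γ') g ∂stdPi κ) - (γ' - γ) * γ' * Fintype.card κ
      ≤ ∫ g, press A (fun _ => γ) g ∂stdPi κ := by
  have hi : ∀ k, Integrable (fun g => g k * avg A (fun _ => γ') g k) (stdPi κ) := fun k =>
    (integrable_coord k).mul_bdd (measurable_avg A _ k).aestronglyMeasurable
      (Filter.Eventually.of_forall fun g => abs_avg_le hA _ g k)
  have hpt : ∀ g : κ → ℝ, press A (fun _ => γ') g - (γ' - γ) * ∑ k, g k * avg A (fun _ => γ') g k
      ≤ press A (fun _ => γ) g := fun g => by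
    have hS := sum_exp_pos A (fun _ => γ') g
    set w := fun x => exp (expo A (fun _ => γ') g x) / ∑ y, exp (expo A (fun _ => γ') g y) with hw_def
    have hw1 : ∑ x, w x = 1 := by rw [← Finset.sum_div, div_self hS.ne']
    set d := fun x => (γ - γ') * ∑ k, g k * A x k with hd_def
    have hj : exp (∑ x, w x • d x) ≤ ∑ x, w x • exp (d x) :=
      convexOn_exp.map_sum_le (fun x _ => (div_pos (exp_pos _) hS).le) hw1 (fun x _ => Set.mem_univ _)
    have e1 : ∑ x, w x • exp (d x)
        = (∑ x, exp (expo A (fun _ => γ) g x)) / ∑ y, exp (expo A (fun _ => γ') g y) := by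
      rw [Finset.sum_div]
      refine Finset.sum_congr rfl fun x _ => ?_
      rw [smul_eq_mul, hw_def, div_mul_eq_mul_div, ← exp_add]
      congr 2
      simp only [hd_def, expo, Finset.mul_sum, ← Finset.sum_add_distrib]
      exact Finset.sum_congr rfl fun k _ => by ring
    have e2 : ∑ x, w x • d x = (γ - γ') * ∑ k, g k * avg A (fun _ => γ') g k := by
      simp only [smul_eq_mul, hd_def, avg, hw_def, Finset.mul_sum, Finset.sum_div]
      rw [Finset.sum_comm]
      exact Finset.sum_congr rfl fun k _ => Finset.sum_congr rfl fun x _ => by ring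
    have := log_le_log (exp_pos _) hj
    rw [log_exp, e1, e2, log_div (sum_exp_pos A _ g).ne' hS.ne'] at this
    rw [press, press]; linarith
  have hI : ∫ g, (γ' - γ) * ∑ k, g k * avg A (fun _ => γ') g k ∂stdPi κ ≤ (γ' - γ) * γ' * Fintype.card κ := by
    rw [integral_const_mul, integral_finsetSum _ fun k _ => hi k, mul_assoc]
    refine mul_le_mul_of_nonneg_left ?_ (sub_nonneg.2 h)
    calc ∑ k, ∫ g, g k * avg A (fun _ => γ') g k ∂stdPi κ ≤ ∑ _k : κ, γ' := by
          refine Finset.sum_le_sum fun k _ => ?_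
          rw [mean_coord_mul_avg hA]
          refine mul_le_of_le_one_right (h0.trans h) ?_
          linarith [integral_nonneg (μ := stdPi κ) (f := fun g => avg A (fun _ => γ') g k ^ 2) fun g => sq_nonneg _]
      _ = _ := by simp; ring
  have hsum : Integrable (fun g => (γ' - γ) * ∑ k, g k * avg A (fun _ => γ') g k) (stdPi κ) :=
    (integrable_finsetSum _ fun k _ => hi k).const_mul _
  have := integral_mono ((integrable_press hA fun _ => γ').sub hsum) (integrable_press hA fun _ => γ) hpt
  rw [integral_sub' (integrable_press hA fun _ => γ') hsum] at this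
  linarith

theorem measurePreserving_reindex {α γ : Type*} [Fintype α] [Fintype γ] (f : α ≃ γ) :
    MeasurePreserving (fun g : γ → ℝ => g ∘ f) (stdPi γ) (stdPi α) := by
  have hm : Measurable fun g : γ → ℝ => g ∘ f := measurable_pi_lambda _ fun a => measurable_pi_apply _
  refine ⟨hm, (Measure.pi_eq fun s hs => ?_).symm⟩
  rw [Measure.map_apply hm (MeasurableSet.univ_pi hs)]
  have : (fun g : γ → ℝ => g ∘ f) ⁻¹' Set.univ.pi s = Set.univ.pi (s ∘ f.symm) := by
    ext g
    simp only [Set.mem_preimage, Set.mem_univ_pi, Function.comp_apply]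
    exact ⟨fun h a => by simpa using h (f.symm a), fun h a => by simpa using h (f a)⟩
  rw [this, stdPi, Measure.pi_pi]
  exact Fintype.prod_equiv f.symm _ _ fun a => rfl

/-- Edges of `n + 1` sites: old edges and edges to the last site. -/
noncomputable def splitEdge (n : ℕ) : Edge n ⊕ Fin n ≃ Edge (n + 1) :=
  Equiv.ofBijective
    (Sum.elim (fun e => ⟨(e.1.1.castSucc, e.1.2.castSucc), Fin.castSucc_lt_castSucc_iff.2 e.2⟩)
      fun i => ⟨(i.castSucc, Fin.last n), Fin.castSucc_lt_last i⟩) <| by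
    constructor
    · rintro (a | a) (b | b) h <;> simp only [Sum.elim_inl, Sum.elim_inr, Subtype.mk.injEq, Prod.mk.injEq,
        Fin.castSucc_inj] at h
      · exact congrArg Sum.inl (Subtype.ext (Prod.ext h.1 h.2))
      · exact absurd h.2 (Fin.castSucc_lt_last _).ne
      · exact absurd h.2.symm (Fin.castSucc_lt_last _).ne
      · exact congrArg Sum.inr h.1
    · rintro ⟨⟨a, b⟩, hab⟩
      have ha : a ≠ Fin.last n := fun h => absurd hab (by rw [h]; exact (Fin.le_last b).not_gt)
      obtain ⟨a', rfl⟩ := Fin.exists_castSucc_eq.2 ha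
      by_cases hb : b = Fin.last n
      · exact ⟨Sum.inr a', by simp [hb]⟩
      · obtain ⟨b', rfl⟩ := Fin.exists_castSucc_eq.2 hb
        exact ⟨Sum.inl ⟨(a', b'), Fin.castSucc_lt_castSucc_iff.1 hab⟩, rfl⟩

theorem splitEdge_inl (n : ℕ) (e : Edge n) :
    (splitEdge n (Sum.inl e)).1 = (e.1.1.castSucc, e.1.2.castSucc) := rfl

theorem splitEdge_inr (n : ℕ) (i : Fin n) :
    (splitEdge n (Sum.inr i)).1 = (i.castSucc, Fin.last n) := rfl

/-- The gain in `log Z` from a new site, less `log 2`. -/
noncomputable def gain (n : ℕ) (β : ℝ) (g : Edge n → ℝ) (z : Fin n → ℝ) : ℝ :=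
  log (∑ x, gibbs n β g x * cosh (∑ i, β / √n * spin (x i) * z i))

theorem press_succ (n : ℕ) (β : ℝ) (g : Edge n → ℝ) (z : Fin n → ℝ) :
    press (pairA (n + 1)) (fun _ => β / √n) (Sum.elim g z ∘ (splitEdge n).symm)
      = press (pairA n) (fun _ => β / √n) g + log 2 + gain n β g z := by
  have hexpo : ∀ (y : Fin n → Bool) (b : Bool),
      expo (pairA (n + 1)) (fun _ => β / √n) (Sum.elim g z ∘ (splitEdge n).symm) (Fin.snoc y b)
        = expo (pairA n) (fun _ => β / √n) g y + spin b * ∑ i, β / √n * spin (y i) * z i := fun y b => by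
    rw [expo, ← (splitEdge n).sum_comp, Fintype.sum_sum_type, expo, Finset.mul_sum]
    congr 1
    · refine Finset.sum_congr rfl fun e _ => ?_
      simp [splitEdge_inl, pairA]
    · refine Finset.sum_congr rfl fun i _ => ?_
      simp [splitEdge_inr, pairA]; ring
  have hsum : ∑ x, exp (expo (pairA (n + 1)) (fun _ => β / √n) (Sum.elim g z ∘ (splitEdge n).symm) x)
      = ∑ y, exp (expo (pairA n) (fun _ => β / √n) g y) * (2 * cosh (∑ i, β / √n * spin (y i) * z i)) := by
    rw [← (Fin.snocEquiv fun _ => Bool).sum_comp, Fintype.sum_prod_type, Finset.sum_comm]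
    refine Finset.sum_congr rfl fun y _ => ?_
    simp [Fin.snocEquiv, hexpo, spin, exp_add, cosh_eq]
    ring
  have hS := sum_exp_pos (pairA n) (fun _ => β / √n) g
  have hG : ∑ x, gibbs n β g x * cosh (∑ i, β / √n * spin (x i) * z i)
      = (∑ y, exp (expo (pairA n) (fun _ => β / √n) g y) * cosh (∑ i, β / √n * spin (y i) * z i))
        / ∑ y, exp (expo (pairA n) (fun _ => β / √n) g y) := by
    simp only [gibbs, expo_pair, Finset.sum_div, div_mul_eq_mul_div]
  have hpos : 0 < ∑ y, exp (expo (pairA n) (fun _ => β / √n) g y) * cosh (∑ i, β / √n * spin (y i) * z i) :=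
    Finset.sum_pos (fun y _ => mul_pos (exp_pos _) (cosh_pos _)) Finset.univ_nonempty
  rw [press, hsum, press, gain, hG, log_div hpos.ne' hS.ne',
    Finset.sum_congr rfl (fun y _ => mul_left_comm (exp (expo (pairA n) (fun _ => β / √n) g y)) 2 _),
    ← Finset.mul_sum, log_mul two_ne_zero hpos.ne']
  ring

theorem measurable_gain (n : ℕ) (β : ℝ) : Measurable fun p : (Edge n → ℝ) × (Fin n → ℝ) => gain n β p.1 p.2 := by
  unfold gain gibbs energy
  exact measurable_log.comp (Finset.measurable_sum _ fun x _ =>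
    Measurable.mul (by fun_prop) (continuous_cosh.measurable.comp (by fun_prop)))

theorem one_le_sum_cosh (n : ℕ) (β : ℝ) (g : Edge n → ℝ) (z : Fin n → ℝ) :
    1 ≤ ∑ x, gibbs n β g x * cosh (∑ i, β / √n * spin (x i) * z i) := by
  refine (sum_gibbs n β g).ge.trans (Finset.sum_le_sum fun x _ => ?_)
  exact le_mul_of_one_le_right (gibbs_pos n β g x).le (one_le_cosh _)

theorem gain_bounds (n : ℕ) (β : ℝ) (g : Edge n → ℝ) (z : Fin n → ℝ) :
    0 ≤ gain n β g z ∧ gain n β g z ≤ |β / √n| * ∑ i, |z i| := by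
  refine ⟨log_nonneg (one_le_sum_cosh n β g z), ?_⟩
  rw [gain, ← log_exp (|β / √n| * ∑ i, |z i|)]
  refine log_le_log (zero_lt_one.trans_le (one_le_sum_cosh n β g z)) ?_
  calc ∑ x, gibbs n β g x * cosh (∑ i, β / √n * spin (x i) * z i)
      ≤ ∑ x, gibbs n β g x * exp (|β / √n| * ∑ i, |z i|) := by
        refine Finset.sum_le_sum fun x _ => mul_le_mul_of_nonneg_left ?_ (gibbs_pos n β g x).le
        rw [← cosh_abs]
        refine le_trans (cosh_le_cosh.2 ?_) ?_ (b := cosh (|β / √n| * ∑ i, |z i|))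
        · rw [abs_abs, abs_of_nonneg (mul_nonneg (abs_nonneg _) (Finset.sum_nonneg fun i _ => abs_nonneg (z i))),
            Finset.mul_sum]
          refine (Finset.abs_sum_le_sum_abs _ _).trans (Finset.sum_le_sum fun i _ => le_of_eq ?_)
          rw [abs_mul, abs_mul, abs_spin, mul_one]
        · rw [← cosh_add_sinh]
          exact le_add_of_nonneg_right (sinh_nonneg_iff.2 (mul_nonneg (abs_nonneg _)
            (Finset.sum_nonneg fun i _ => abs_nonneg (z i))))
    _ = _ := by rw [← Finset.sum_mul, sum_gibbs, one_mul]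

theorem integrable_cosh_dot (v : Fin n → ℝ) : Integrable (fun z => cosh (∑ i, v i * z i)) (stdPi (Fin n)) := by
  have := ((integrable_exp_dot v).add (integrable_exp_dot (-v))).div_const 2
  refine this.congr (Filter.Eventually.of_forall fun z => ?_)
  simp [cosh_eq, Finset.sum_neg_distrib]

theorem integral_cosh_dot (v : Fin n → ℝ) :
    ∫ z, cosh (∑ i, v i * z i) ∂stdPi (Fin n) = exp ((∑ i, v i ^ 2) / 2) := by
  have e : ∀ z : Fin n → ℝ, cosh (∑ i, v i * z i)
      = (exp (∑ i, v i * z i) + exp (∑ i, (-v) i * z i)) / 2 := fun z => by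
    simp [cosh_eq, Finset.sum_neg_distrib]
  simp_rw [e]
  rw [integral_div, integral_add (integrable_exp_dot v) (integrable_exp_dot (-v)), integral_exp_dot,
    integral_exp_dot]
  simp

theorem cosh_sub_one_le {t M : ℝ} (h : |t| ≤ M) : cosh t - 1 ≤ t ^ 2 / 2 * cosh (M / 2) ^ 2 := by
  have h2 : cosh t - 1 = 2 * sinh (t / 2) ^ 2 := by
    have := cosh_two_mul (t / 2)
    rw [mul_div_cancel₀ t two_ne_zero, cosh_sq] at this
    linarith
  have hM : 0 ≤ M := (abs_nonneg t).trans h
  have hs : |sinh (t / 2)| ≤ |t / 2| * cosh (M / 2) := by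
    rw [abs_sinh]
    have hu : |t / 2| ≤ M / 2 := by rw [abs_div, abs_two]; linarith
    have hmon : MonotoneOn (fun y => y * cosh (M / 2) - sinh y) (Set.Icc 0 (M / 2)) :=
      monotoneOn_of_deriv_nonneg (convex_Icc _ _) (by fun_prop) (by fun_prop) fun y hy => by
        rw [interior_Icc] at hy
        have hd : HasDerivAt (fun y => y * cosh (M / 2) - sinh y) (cosh (M / 2) - cosh y) y :=
          (((hasDerivAt_id y).mul_const _).sub (hasDerivAt_sinh y)).congr_deriv (by simp)
        rw [hd.deriv, sub_nonneg]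
        exact cosh_le_cosh.2 (by rw [abs_of_pos hy.1, abs_of_nonneg (by linarith : (0 : ℝ) ≤ M / 2)]; exact hy.2.le)
    have := hmon (Set.left_mem_Icc.2 (by linarith)) ⟨abs_nonneg _, hu⟩ (abs_nonneg _)
    simpa using this
  calc cosh t - 1 = 2 * |sinh (t / 2)| ^ 2 := by rw [h2, sq_abs]
    _ ≤ 2 * (|t / 2| * cosh (M / 2)) ^ 2 := by gcongr
    _ = _ := by rw [mul_pow, sq_abs]; ring

/-- The constant of the second-moment bound. -/
noncomputable def cavityConst (β : ℝ) : ℝ :=
  exp (β ^ 2) * (β ^ 4 / 2 * cosh (β ^ 2 / 2) ^ 2)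

theorem mean_gain_ge (hn : 0 < n) (β : ℝ) (g : Edge n → ℝ) {ε : ℝ} (hε : 0 < ε) :
    β ^ 2 / 2 - ε / 2 - cavityConst β / (2 * ε) * overlapSq n β g ≤ ∫ z, gain n β g z ∂stdPi (Fin n) := by
  set a := exp (β ^ 2 / 2) with ha
  set v : (Fin n → Bool) → Fin n → ℝ := fun x i => β / √n * spin (x i)
  set Y := fun z : Fin n → ℝ => ∑ x, gibbs n β g x * cosh (∑ i, v x i * z i) with hY
  have hn' : (0 : ℝ) < n := by exact_mod_cast hn
  have hvv : ∀ x, ∑ i, v x i ^ 2 = β ^ 2 := fun x => by
    simp [v, mul_pow, spin_sq, div_pow, sq_sqrt hn'.le]; field_simp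
  set O := fun x y : Fin n → Bool => ∑ i, spin (x i) * spin (y i) with hO
  have hcross : ∀ (x y : Fin n → Bool) (s : ℝ), s ^ 2 = 1 →
      (∑ i, (v x i + s * v y i) ^ 2) / 2 = β ^ 2 + s * (β ^ 2 / n * O x y) := fun x y s hs => by
    have e : ∀ i, (v x i + s * v y i) ^ 2
        = v x i ^ 2 + v y i ^ 2 + 2 * s * (β ^ 2 / n * (spin (x i) * spin (y i))) := fun i => by
      have hb : (β / √n) ^ 2 = β ^ 2 / n := by rw [div_pow, sq_sqrt hn'.le]
      simp only [v]
      linear_combination (2 * s * (spin (x i) * spin (y i))) * hb + ((β / √n) * spin (y i)) ^ 2 * hs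
    simp only [e, Finset.sum_add_distrib, hvv, ← Finset.mul_sum, hO]
    ring
  have hp : ∀ (x y : Fin n → Bool) (z : Fin n → ℝ), cosh (∑ i, v x i * z i) * cosh (∑ i, v y i * z i)
      = (cosh (∑ i, (v x i + 1 * v y i) * z i) + cosh (∑ i, (v x i + -1 * v y i) * z i)) / 2 := fun x y z => by
    simp only [one_mul, neg_one_mul, add_mul, neg_mul, Finset.sum_add_distrib, Finset.sum_neg_distrib,
      cosh_add, cosh_neg, sinh_neg]
    ring
  have hY2 : ∀ z, Y z ^ 2 = ∑ x, ∑ y, gibbs n β g x * gibbs n β g y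
      * ((cosh (∑ i, (v x i + 1 * v y i) * z i) + cosh (∑ i, (v x i + -1 * v y i) * z i)) / 2) := fun z => by
    rw [sq, hY, Finset.sum_mul_sum]
    exact Finset.sum_congr rfl fun x _ => Finset.sum_congr rfl fun y _ => by rw [← hp]; ring
  have hiY : Integrable Y (stdPi (Fin n)) := integrable_finsetSum _ fun x _ => (integrable_cosh_dot (v x)).const_mul _
  have hipair : ∀ x y, Integrable (fun z : Fin n → ℝ => gibbs n β g x * gibbs n β g y
      * ((cosh (∑ i, (v x i + 1 * v y i) * z i) + cosh (∑ i, (v x i + -1 * v y i) * z i)) / 2)) (stdPi (Fin n)) :=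
    fun x y => (((integrable_cosh_dot _).add (integrable_cosh_dot _)).div_const 2).const_mul _
  have hiY2 : Integrable (fun z => Y z ^ 2) (stdPi (Fin n)) :=
    (integrable_finsetSum _ fun x _ => integrable_finsetSum _ fun y _ => hipair x y).congr
      (Filter.Eventually.of_forall fun z => (hY2 z).symm)
  have hEY : ∫ z, Y z ∂stdPi (Fin n) = a := by
    rw [hY, integral_finsetSum _ fun x _ => (integrable_cosh_dot (v x)).const_mul _]
    simp only [integral_const_mul, integral_cosh_dot, hvv, ← Finset.sum_mul, sum_gibbs, one_mul, ha]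
  have hQ : ∑ x, ∑ y, gibbs n β g x * gibbs n β g y * (O x y / n) ^ 2 = overlapSq n β g := by
    have h := (overlap_identity (fun x => gibbs n β g x) fun x i => spin (x i)).1
    rw [overlapSq]
    simp only [corr, h, hO]
    rw [Finset.sum_div]
    refine Finset.sum_congr rfl fun x _ => ?_
    rw [Finset.sum_div]
    exact Finset.sum_congr rfl fun y _ => by rw [div_pow, mul_div_assoc]
  have hEY2 : ∫ z, Y z ^ 2 ∂stdPi (Fin n) ≤ a ^ 2 + cavityConst β * overlapSq n β g := by
    simp_rw [hY2]
    rw [integral_finsetSum _ fun x _ => integrable_finsetSum _ fun y _ => hipair x y, ← hQ, Finset.mul_sum]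
    have h1 : a ^ 2 = ∑ x, ∑ y, gibbs n β g x * gibbs n β g y * a ^ 2 := by
      simp_rw [← Finset.sum_mul, ← Finset.mul_sum, sum_gibbs, mul_one, sum_gibbs, one_mul]
    rw [h1, ← Finset.sum_add_distrib]
    refine Finset.sum_le_sum fun x _ => ?_
    rw [integral_finsetSum _ fun y _ => hipair x y, Finset.mul_sum, ← Finset.sum_add_distrib]
    refine Finset.sum_le_sum fun y _ => ?_
    rw [integral_const_mul, integral_div, integral_add (integrable_cosh_dot _) (integrable_cosh_dot _),
      integral_cosh_dot, integral_cosh_dot, hcross x y 1 (by norm_num), hcross x y (-1) (by norm_num),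
      one_mul, neg_one_mul, exp_add, exp_add]
    have hab : |β ^ 2 / n * O x y| ≤ β ^ 2 := by
      rw [abs_mul, abs_of_nonneg (by positivity : (0 : ℝ) ≤ β ^ 2 / n), div_mul_eq_mul_div, div_le_iff₀ hn']
      refine mul_le_mul_of_nonneg_left ((Finset.abs_sum_le_sum_abs _ _).trans ?_) (sq_nonneg _)
      simp [abs_mul, abs_spin]
    have hc := cosh_sub_one_le hab
    have ha2 : a ^ 2 = exp (β ^ 2) := by rw [ha, ← exp_nat_mul]; push_cast; ring_nf
    rw [ha2, cavityConst, show (exp (β ^ 2) * exp (β ^ 2 / n * O x y) + exp (β ^ 2) * exp (-(β ^ 2 / n * O x y))) / 2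
      = exp (β ^ 2) * cosh (β ^ 2 / n * O x y) by rw [cosh_eq]; ring]
    have hw := mul_nonneg (mul_nonneg (gibbs_pos n β g x).le (gibbs_pos n β g y).le) (exp_pos (β ^ 2)).le
    have := mul_le_mul_of_nonneg_left hc hw
    linear_combination this
  have hpt : ∀ z, β ^ 2 / 2 - ε / 2 - (Y z ^ 2 - 2 * a * Y z + a ^ 2) / (2 * ε) ≤ gain n β g z := fun z => by
    have hY1 : 1 ≤ Y z := one_le_sum_cosh n β g z
    have hg : gain n β g z = log (Y z) := rfl
    have h1 : log a - |Y z - a| ≤ log (Y z) := by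
      have := log_le_sub_one_of_pos (div_pos (exp_pos (β ^ 2 / 2)) (zero_lt_one.trans_le hY1))
      rw [log_div (exp_pos _).ne' (zero_lt_one.trans_le hY1).ne'] at this
      have h3 : a / Y z - 1 ≤ |Y z - a| := by
        rw [div_sub_one (zero_lt_one.trans_le hY1).ne', abs_sub_comm]
        rcases le_total a (Y z) with h | h
        · exact (div_nonpos_of_nonpos_of_nonneg (sub_nonpos.2 h) (zero_le_one.trans hY1)).trans (abs_nonneg _)
        · exact (div_le_self (sub_nonneg.2 h) hY1).trans (le_abs_self _)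
      linarith
    rw [ha, log_exp] at h1
    have h2 : |Y z - a| ≤ ε / 2 + (Y z ^ 2 - 2 * a * Y z + a ^ 2) / (2 * ε) := by
      rw [div_add_div _ _ two_ne_zero (by positivity), le_div_iff₀ (by positivity)]
      nlinarith [sq_nonneg (|Y z - a| - ε), sq_abs (Y z - a)]
    rw [hg]; linarith
  have hgi : Integrable (fun z => gain n β g z) (stdPi (Fin n)) :=
    Integrable.mono' ((integrable_finsetSum _ fun i _ => (integrable_coord i).abs).const_mul |β / √n|)
      ((measurable_gain n β).comp (measurable_const.prodMk measurable_id)).aestronglyMeasurable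
      (Filter.Eventually.of_forall fun z => by
        rw [Real.norm_of_nonneg (gain_bounds n β g z).1]; exact (gain_bounds n β g z).2)
  have hi2 : Integrable (fun z => Y z ^ 2 - 2 * a * Y z + a ^ 2) (stdPi (Fin n)) :=
    (hiY2.sub (hiY.const_mul _)).add (integrable_const _)
  refine le_trans ?_ (integral_mono ((integrable_const _).sub (hi2.div_const (2 * ε))) hgi hpt)
  rw [integral_sub' (integrable_const _) (hi2.div_const _), integral_div,
    integral_add (f := fun z => Y z ^ 2 - 2 * a * Y z) (hiY2.sub (hiY.const_mul _)) (integrable_const _),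
    integral_sub hiY2 (hiY.const_mul _), integral_const_mul, hEY]
  simp only [integral_const, probReal_univ, smul_eq_mul, one_mul]
  have := div_le_div_of_nonneg_right (show ∫ z, Y z ^ 2 ∂stdPi (Fin n) - 2 * a * a + a ^ 2
    ≤ cavityConst β * overlapSq n β g by linarith) (show (0 : ℝ) ≤ 2 * ε by linarith)
  rw [div_mul_eq_mul_div]
  linarith

theorem free_succ_ge (hn : 0 < n) {β : ℝ} (hβ : 0 ≤ β) {ε : ℝ} (hε : 0 < ε) :
    free n β + log 2 + β ^ 2 / 4 - β ^ 2 / n - ε / 2
        - cavityConst β / (2 * ε) * ∫ g, overlapSq n β g ∂stdPi (Edge n)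
      ≤ free (n + 1) β := by
  have hn' : (0 : ℝ) < n := by exact_mod_cast hn
  set m : ℝ := ((n + 1 : ℕ) : ℝ) with hm
  have hm' : m = n + 1 := by simp [hm]
  have hle : β / √m ≤ β / √n := div_le_div_of_nonneg_left hβ (sqrt_pos.2 hn') (sqrt_le_sqrt (by linarith))
  have h1 := mean_press_ge (pairA_sq (n + 1)) (div_nonneg hβ (sqrt_nonneg m)) hle
  have hcard : (Fintype.card (Edge (n + 1)) : ℝ) = (n + 1) * n / 2 := by
    have := sum_edge (n := n + 1) (fun _ _ => (1 : ℝ)) fun _ _ => rfl
    simp at this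
    linarith
  have hloss : (β / √n - β / √m) * (β / √n) * Fintype.card (Edge (n + 1)) ≤ β ^ 2 / 4 + β ^ 2 / n := by
    rw [hcard]
    set s := √(n : ℝ) with hs
    set t := √m with ht
    have hs0 : 0 < s := sqrt_pos.2 hn'
    have ht0 : 0 < t := sqrt_pos.2 (by linarith)
    have hs2 : s ^ 2 = n := sq_sqrt hn'.le
    have ht2 : t ^ 2 = n + 1 := by rw [← hm']; exact sq_sqrt (by linarith)
    have hst : s ≤ t := sqrt_le_sqrt (by linarith)
    have e : (β / s - β / t) * (β / s) * ((n + 1) * n / 2) = β ^ 2 / 2 * (t ^ 2 / (t * (t + s))) := by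
      rw [← hs2]
      rw [← hs2] at ht2
      field_simp
      linear_combination β ^ 2 * s ^ 2 * ht2
    rw [e]
    have h2 : t ^ 2 / (t * (t + s)) ≤ 1 / 2 + 2 / n := by
      have h3 : t ^ 2 / (t * (t + s)) = 1 / 2 + 1 / (2 * (t + s) ^ 2) := by
        rw [← hs2] at ht2
        field_simp
        linear_combination ht2
      rw [h3, ← hs2]
      gcongr 1 / 2 + ?_
      rw [div_le_div_iff₀ (by positivity) (by positivity)]
      nlinarith [mul_pos ht0 hs0]
    calc β ^ 2 / 2 * (t ^ 2 / (t * (t + s))) ≤ β ^ 2 / 2 * (1 / 2 + 2 / n) :=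
          mul_le_mul_of_nonneg_left h2 (by positivity)
      _ = _ := by ring
  -- the larger system at coupling `β / √n`
  have hmp := measurePreserving_reindex (splitEdge n).symm
  have hmp2 := measurePreserving_sumPiEquivProdPi_symm (X := fun _ : Edge n ⊕ Fin n => ℝ) fun _ => std
  have hT : MeasurePreserving (fun p : (Edge n → ℝ) × (Fin n → ℝ) => Sum.elim p.1 p.2 ∘ (splitEdge n).symm)
      ((stdPi (Edge n)).prod (stdPi (Fin n))) (stdPi (Edge (n + 1))) := by
    refine hmp.comp ?_
    convert hmp2 using 1 <;> first | rfl | (funext p k; cases k <;> rfl)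
  have hPi := integrable_press (pairA_sq n) fun _ : Edge n => β / √n
  have hgainI : Integrable (fun p : (Edge n → ℝ) × (Fin n → ℝ) => gain n β p.1 p.2)
      ((stdPi (Edge n)).prod (stdPi (Fin n))) :=
    Integrable.mono' (((integrable_finsetSum _ fun i _ => (integrable_coord i).abs).const_mul |β / √n|).comp_snd _)
      (measurable_gain n β).aestronglyMeasurable (Filter.Eventually.of_forall fun p => by
        rw [Real.norm_of_nonneg (gain_bounds n β p.1 p.2).1]; exact (gain_bounds n β p.1 p.2).2)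
  have hbig : ∫ g, press (pairA (n + 1)) (fun _ => β / √n) g ∂stdPi (Edge (n + 1))
      = free n β + log 2 + ∫ g, ∫ z, gain n β g z ∂stdPi (Fin n) ∂stdPi (Edge n) := by
    rw [← hT.map_eq, integral_map hT.measurable.aemeasurable (measurable_press _ _).aestronglyMeasurable]
    simp only [press_succ]
    have hA : Integrable (fun p : (Edge n → ℝ) × (Fin n → ℝ) => press (pairA n) (fun _ => β / √n) p.1 + log 2)
        ((stdPi (Edge n)).prod (stdPi (Fin n))) := (hPi.comp_fst _).add (integrable_const _)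
    rw [integral_add hA hgainI, integral_prod _ hA, integral_prod _ hgainI]
    congr 1
    simp only [integral_const, probReal_univ, smul_eq_mul, one_mul, free]
    rw [integral_add hPi (integrable_const _)]
    simp
  have hgain := integral_mono ((integrable_const (β ^ 2 / 2 - ε / 2)).sub
    ((integrable_overlapSq n β).const_mul (cavityConst β / (2 * ε)))) hgainI.integral_prod_left
    (fun g => mean_gain_ge hn β g hε)
  rw [integral_sub' (integrable_const _) ((integrable_overlapSq n β).const_mul _), integral_const_mul] at hgain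
  simp only [integral_const, probReal_univ, smul_eq_mul, one_mul] at hgain
  rw [hbig] at h1
  have hfree : free (n + 1) β = ∫ g, press (pairA (n + 1)) (fun _ => β / √m) g ∂stdPi (Edge (n + 1)) := rfl
  linarith

theorem overlap_sum_ge {β : ℝ} (hβ : 1 < β) :
    ∃ N₀ : ℕ, ∀ N ≥ N₀,
      deficit β ^ 2 / (2 * cavityConst β) * N
        ≤ ∑ m ∈ Finset.range N, ∫ g, overlapSq m β g ∂stdPi (Edge m) := by
  set η := deficit β with hη_def
  have hη : 0 < η := deficit_pos hβ
  have hdef := free_deficit hβ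
  rw [← hη_def] at hdef
  set q2 := fun m => ∫ g, overlapSq m β g ∂stdPi (Edge m) with hq2
  set K := cavityConst β / (2 * η) with hK
  have hK0 : 0 < K := by
    have hc : 0 < cosh (β ^ 2 / 2) := cosh_pos _
    rw [hK, cavityConst]; positivity
  set A := log 2 + β ^ 2 / 4 with hA
  have hstep : ∀ m : ℕ, 1 ≤ m → free m β + A - β ^ 2 / m - η / 2 - K * q2 m ≤ free (m + 1) β := fun m hm => by
    have := free_succ_ge (n := m) hm (by linarith : (0 : ℝ) ≤ β) hη
    linarith
  have hind : ∀ j : ℕ, free 1 β + j * (A - η / 2) - ∑ m ∈ Finset.range (j + 1), (β ^ 2 / m + K * q2 m)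
      ≤ free (j + 1) β := by
    intro j
    induction j with
    | zero =>
      have h0 : 0 ≤ q2 0 := integral_nonneg fun g => (overlapSq_mem 0 β g).1
      simp
      nlinarith
    | succ j ih =>
      rw [Finset.sum_range_succ]
      have := hstep (j + 1) (by omega)
      push_cast at ih this ⊢
      linarith
  have hharm : ∀ M N : ℕ, 1 ≤ M → ∑ m ∈ Finset.range N, β ^ 2 / (m : ℝ) ≤ β ^ 2 * M + β ^ 2 / M * N := fun M N hM => by
    calc ∑ m ∈ Finset.range N, β ^ 2 / (m : ℝ)
        ≤ ∑ m ∈ Finset.range N, ((if m < M then β ^ 2 else 0) + β ^ 2 / M) := by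
          refine Finset.sum_le_sum fun m _ => ?_
          split_ifs with h
          · rcases Nat.eq_zero_or_pos m with rfl | hm
            · simp; positivity
            · have : (1 : ℝ) ≤ m := by exact_mod_cast hm
              exact (div_le_self (sq_nonneg β) this).trans (le_add_of_nonneg_right (by positivity))
          · rw [zero_add]
            exact div_le_div_of_nonneg_left (sq_nonneg β) (by exact_mod_cast hM) (by exact_mod_cast not_lt.1 h)
      _ ≤ _ := by
          rw [Finset.sum_add_distrib]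
          refine add_le_add ?_ (by simp; ring_nf; rfl)
          rw [← Finset.sum_filter, Finset.sum_const, nsmul_eq_mul, mul_comm]
          refine mul_le_mul_of_nonneg_left ?_ (sq_nonneg _)
          have : (Finset.range N).filter (· < M) ⊆ Finset.range M := fun x hx => by
            simp at hx ⊢; exact hx.2
          exact_mod_cast (Finset.card_le_card this).trans (le_of_eq (Finset.card_range M))
  obtain ⟨M, hM⟩ := exists_nat_gt (max 1 (8 * β ^ 2 / η))
  have hM1 : 1 ≤ M := by exact_mod_cast ((le_max_left _ _).trans hM.le)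
  obtain ⟨N₀, hN₀⟩ := exists_nat_gt (8 * (β ^ 2 * M + |A - η / 2 - free 1 β|) / η)
  refine ⟨max N₀ 1, fun N hN => ?_⟩
  have hKeq : η ^ 2 / (2 * cavityConst β) = η / (4 * K) := by
    have hc : cavityConst β ≠ 0 := by
      have hc : 0 < cosh (β ^ 2 / 2) := cosh_pos _
      rw [cavityConst]; positivity
    rw [hK]; field_simp; ring
  rw [hKeq]
  obtain ⟨j, rfl⟩ : ∃ j, N = j + 1 := ⟨N - 1, by omega⟩
  have h1 := hind j
  rw [Finset.sum_add_distrib, ← Finset.mul_sum] at h1
  have h2 := hharm M (j + 1) hM1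
  have h3 := hdef (j + 1)
  have hN' : (N₀ : ℝ) ≤ ((j + 1 : ℕ) : ℝ) := by exact_mod_cast le_trans (le_max_left _ _) hN
  have h4 : 8 * (β ^ 2 * M + |A - η / 2 - free 1 β|) < η * ((j + 1 : ℕ) : ℝ) := by
    rw [div_lt_iff₀ hη] at hN₀
    nlinarith [mul_le_mul_of_nonneg_right hN' hη.le]
  have h5 : β ^ 2 / M * ((j + 1 : ℕ) : ℝ) ≤ η / 8 * ((j + 1 : ℕ) : ℝ) := by
    refine mul_le_mul_of_nonneg_right ?_ (by positivity)
    have h := (le_max_right _ _).trans_lt hM
    rw [div_lt_iff₀ hη] at h
    rw [div_le_div_iff₀ (by exact_mod_cast hM1) (by norm_num)]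
    linarith
  have h6 := le_abs_self (A - η / 2 - free 1 β)
  rw [div_mul_eq_mul_div, div_le_iff₀ (by positivity)]
  push_cast at *
  nlinarith

end Vale.Agent.P150
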