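import Vale.Agent.P150.Site
import Vale.Agent.P150.Glauber

/-!
# P150: with high probability the squared overlap is bounded away from zero
-/

open MeasureTheory ProbabilityTheory Real Filter

namespace Vale.Agent.P150

variable {n : ℕ} {β : ℝ}

/-- The edge `e` contains the site `i`. -/
def incident (i : Fin n) (e : Edge n) : Prop := e.1.1 = i ∨ e.1.2 = i

instance (i : Fin n) : DecidablePred (incident i) := fun e =>
  inferInstanceAs (Decidable (e.1.1 = i ∨ e.1.2 = i))

theorem sum_incident (i : Fin n) (φ : Fin n → Fin n → ℝ) (hs : ∀ a b, φ a b = φ b a) :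
    ∑ e : {e : Edge n // incident i e}, φ e.1.1.1 e.1.1.2 = ∑ j, φ i j - φ i i := by
  have h0 : ∑ e : {e : Edge n // incident i e}, φ e.1.1.1 e.1.1.2
      = ∑ e : Edge n, if incident i e then φ e.1.1 e.1.2 else 0 := by
    rw [← Finset.sum_filter]
    exact (Finset.sum_subtype _ (fun e => by simp) fun e : Edge n => φ e.1.1 e.1.2).symm
  have h1 : ∑ e : Edge n, (if incident i e then φ e.1.1 e.1.2 else 0)
      = ∑ a, ∑ b, if a < b then (if a = i ∨ b = i then φ a b else 0) else 0 := by
    rw [← Fintype.sum_prod_type']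
    exact ((Finset.sum_subtype (Finset.univ.filter fun p : Fin n × Fin n => p.1 < p.2) (fun p => by simp)
      fun p : Fin n × Fin n => if p.1 = i ∨ p.2 = i then φ p.1 p.2 else 0).symm).trans (Finset.sum_filter _ _)
  have h2 : ∀ a b, (if a < b then (if a = i ∨ b = i then φ a b else 0) else 0)
      = (if a = i then (if i < b then φ i b else 0) else 0)
        + (if b = i then (if a < i then φ i a else 0) else 0) := fun a b => by
    by_cases ha : a = i
    · subst ha
      by_cases hb : b = a
      · subst hb; simp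
      · simp [hb]
    · by_cases hb : b = i
      · subst hb; simp [ha, hs]
      · simp [ha, hb]
  rw [h0, h1, eq_sub_iff_add_eq]
  simp only [h2, Finset.sum_add_distrib, Finset.sum_ite_eq', Finset.mem_univ, if_true]
  rw [Finset.sum_comm]
  simp only [Finset.sum_ite_eq', Finset.mem_univ, if_true]
  have hd : φ i i = ∑ j, if j = i then φ i j else 0 := by simp
  rw [hd, ← Finset.sum_add_distrib, ← Finset.sum_add_distrib]
  refine Finset.sum_congr rfl fun j _ => ?_
  rcases lt_trichotomy i j with h | h | h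
  · simp [h, h.ne', h.not_gt]
  · simp [h]
  · simp [h, h.ne, h.not_gt]

theorem card_incident (i : Fin n) : (Fintype.card {e : Edge n // incident i e} : ℝ) = n - 1 := by
  have := sum_incident i (fun _ _ => (1 : ℝ)) fun _ _ => rfl
  simpa using this

theorem sum_sum_incident (f : Edge n → ℝ) :
    ∑ i, ∑ e : {e : Edge n // incident i e}, f e.1 = 2 * ∑ e, f e := by
  have h0 : ∀ i, ∑ e : {e : Edge n // incident i e}, f e.1 = ∑ e : Edge n, if incident i e then f e else 0 :=
    fun i => by
      rw [← Finset.sum_filter]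
      exact (Finset.sum_subtype _ (fun e => by simp) f).symm
  simp only [h0]
  rw [Finset.sum_comm, Finset.mul_sum]
  refine Finset.sum_congr rfl fun e _ => ?_
  have hne := ne_of_lt e.2
  have h2 : ∀ i, (if incident i e then f e else 0) = (if e.1.1 = i then f e else 0) + (if e.1.2 = i then f e else 0) :=
    fun i => by
      unfold incident
      by_cases h1 : e.1.1 = i
      · subst h1; simp [hne.symm]
      · simp [h1]
  simp only [h2, Finset.sum_add_distrib, Finset.sum_ite_eq, Finset.mem_univ, if_true]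
  ring

/-- The energy deficit at the site `i` on the event of small overlap. -/
noncomputable def localDef (n : ℕ) (β ε κ : ℝ) (i : Fin n) (g : Edge n → ℝ) : ℝ :=
  if overlapSq n β g ≤ ε then
    max 0 (β ^ 2 * ((n : ℝ) - 1) / n * (1 - κ / 2)
      - ∑ e : {e : Edge n // incident i e}, β / √n * g e.1 * corr n β g e.1.1.1 e.1.1.2)
  else 0

theorem overlapSq_eq_pairMean (g : Edge n → ℝ) :
    overlapSq n β g
      = pairMean (gibbs n β g) fun x y => ((∑ j, spin (x j) * spin (y j)) / n) ^ 2 := by
  have h := (overlap_identity (fun x => gibbs n β g x) fun x i => spin (x i)).1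
  rw [overlapSq, pairMean]
  simp only [corr, h]
  rw [Finset.sum_div]
  refine Finset.sum_congr rfl fun x _ => ?_
  rw [Finset.sum_div]
  exact Finset.sum_congr rfl fun y _ => by rw [div_pow, mul_div_assoc]

theorem abs_corr (g : Edge n → ℝ) (a b : Fin n) : |corr n β g a b| ≤ 1 := abs_corr_le n β g a b

theorem measurable_localDef (ε κ : ℝ) (i : Fin n) : Measurable (localDef n β ε κ i) := by
  refine Measurable.ite (measurableSet_le (measurable_overlapSq n β) measurable_const) ?_ measurable_const
  unfold corr gibbs energy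
  fun_prop

theorem localDef_nonneg (ε κ : ℝ) (i : Fin n) (g : Edge n → ℝ) : 0 ≤ localDef n β ε κ i g := by
  rw [localDef]; split_ifs <;> simp

theorem integrable_localDef (ε κ : ℝ) (i : Fin n) : Integrable (localDef n β ε κ i) (stdPi (Edge n)) := by
  refine Integrable.mono' ((integrable_const |β ^ 2 * ((n : ℝ) - 1) / n * (1 - κ / 2)|).add
      (integrable_finsetSum (Finset.univ : Finset {e : Edge n // incident i e}) fun e _ =>
        (integrable_coord e.1).abs.const_mul |β / √n|))
    (measurable_localDef ε κ i).aestronglyMeasurable (Eventually.of_forall fun g => ?_)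
  rw [Real.norm_of_nonneg (localDef_nonneg ε κ i g), localDef]
  simp only [Pi.add_apply]
  split_ifs
  · refine max_le (by positivity) ((le_abs_self _).trans ((abs_sub _ _).trans (add_le_add le_rfl ?_)))
    refine (Finset.abs_sum_le_sum_abs _ _).trans (Finset.sum_le_sum fun e _ => ?_)
    rw [abs_mul, abs_mul]
    exact mul_le_of_le_one_right (by positivity) (abs_corr g _ _)
  · positivity

theorem site_integral_le (hn : 0 < n) (i : Fin n) {δ ε κ ρ ρ' : ℝ} (hδ : 0 < δ) (hε : 0 < ε) (hκ : 0 < κ)
    (hκ1 : κ ≤ 1) (hρ : 0 < ρ) (hρ' : 0 < ρ') :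
    ∫ g, localDef n β ε κ i g ∂stdPi (Edge n)
      ≤ exp (2 * β ^ 2) * (β ^ 2 * (√δ + 1 / n) / ρ' + 4 * ρ') / κ + ρ * ((β ^ 2) ^ 2 + 4 * exp (2 * β ^ 2))
        + √ε * exp (2 * β ^ 2) / (2 * ρ * δ) := by
  have hn' : (0 : ℝ) < n := by exact_mod_cast hn
  set s := β / √n with hs
  have hs2 : s ^ 2 = β ^ 2 / n := by rw [hs, div_pow, sq_sqrt hn'.le]
  set J := {e : Edge n // incident i e}
  set K := {e : Edge n // ¬incident i e}
  set σ : J ⊕ K ≃ Edge n := Equiv.sumCompl (incident i) with hσ
  set T : (J → ℝ) × (K → ℝ) → Edge n → ℝ := fun p => Sum.elim p.1 p.2 ∘ σ.symm with hT_def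
  have hσl : ∀ e : J, σ (Sum.inl e) = e.1 := fun e => rfl
  have hσr : ∀ e : K, σ (Sum.inr e) = e.1 := fun e => rfl
  have hTl : ∀ z r, ∀ e : J, T (z, r) e.1 = z e := fun z r e => by
    simp only [hT_def, Function.comp_apply]; rw [← hσl e, Equiv.symm_apply_apply]; rfl
  have hTr : ∀ z r, ∀ e : K, T (z, r) e.1 = r e := fun z r e => by
    simp only [hT_def, Function.comp_apply]; rw [← hσr e, Equiv.symm_apply_apply]; rfl
  have hT : MeasurePreserving T ((stdPi J).prod (stdPi K)) (stdPi (Edge n)) := by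
    refine (measurePreserving_reindex σ.symm).comp ?_
    have hmp2 := measurePreserving_sumPiEquivProdPi_symm (X := fun _ : J ⊕ K => ℝ) fun _ => std
    convert hmp2 using 1 <;> first | rfl | (funext p k; cases k <;> rfl)
  set v : (Fin n → Bool) → J → ℝ := fun x e => s * pairA n x e.1 with hv
  set O := fun x y : Fin n → Bool => ∑ j, spin (x j) * spin (y j) with hO
  set R := fun x y : Fin n → Bool => (O x y / n) ^ 2 with hR
  have hOn : ∀ x y, |O x y| ≤ n := fun x y => (Finset.abs_sum_le_sum_abs _ _).trans (by simp [abs_mul, abs_spin])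
  have hR01 : ∀ x y, R x y ∈ Set.Icc (0 : ℝ) 1 := fun x y => by
    refine ⟨sq_nonneg _, ?_⟩
    simp only [hR]
    rw [sq_le_one_iff_abs_le_one, abs_div, abs_of_pos hn', div_le_one hn']
    exact hOn x y
  have hb : ∀ x, ∑ e, v x e ^ 2 = β ^ 2 * ((n : ℝ) - 1) / n := fun x => by
    simp only [hv, mul_pow, pairA_sq, mul_one, Finset.sum_const, Finset.card_univ, nsmul_eq_mul,
      card_incident, J, hs2]
    ring
  have hcross : ∀ x y, |∑ e, v x e * v y e| ≤ β ^ 2 * (|O x y| / n + 1 / n) := fun x y => by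
    have e1 := sum_incident i (fun a b => (spin (x a) * spin (y a)) * (spin (x b) * spin (y b)))
      fun a b => mul_comm _ _
    have e2 : ∑ e, v x e * v y e = β ^ 2 / n * ((spin (x i) * spin (y i)) * O x y - 1) := by
      have : ∀ e : J, v x e * v y e = β ^ 2 / n
          * ((spin (x e.1.1.1) * spin (y e.1.1.1)) * (spin (x e.1.1.2) * spin (y e.1.1.2))) := fun e => by
        simp only [hv, pairA]; rw [← hs2]; ring
      rw [Finset.sum_congr rfl fun e _ => this e, ← Finset.mul_sum, e1, hO, Finset.mul_sum]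
      congr 2
      rw [mul_mul_mul_comm, spin_mul_self, spin_mul_self, one_mul]
    rw [e2, abs_mul, abs_of_nonneg (by positivity : (0 : ℝ) ≤ β ^ 2 / n)]
    have h3 : |spin (x i) * spin (y i) * O x y - 1| ≤ |O x y| + 1 := by
      refine (abs_sub _ _).trans ?_
      simp [abs_mul, abs_spin]
    calc β ^ 2 / n * |spin (x i) * spin (y i) * O x y - 1| ≤ β ^ 2 / n * (|O x y| + 1) :=
          mul_le_mul_of_nonneg_left h3 (by positivity)
      _ = _ := by ring
  have hint : Integrable (fun p => localDef n β ε κ i (T p)) ((stdPi J).prod (stdPi K)) :=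
    hT.integrable_comp_of_integrable (integrable_localDef ε κ i)
  rw [← hT.map_eq, integral_map hT.measurable.aemeasurable (measurable_localDef ε κ i).aestronglyMeasurable,
    integral_prod_symm _ hint]
  refine (integral_mono hint.integral_prod_right (integrable_const _) fun r => ?_).trans
    (le_of_eq (by simp : ∫ _, exp (2 * β ^ 2) * (β ^ 2 * (√δ + 1 / n) / ρ' + 4 * ρ') / κ
      + ρ * ((β ^ 2) ^ 2 + 4 * exp (2 * β ^ 2)) + √ε * exp (2 * β ^ 2) / (2 * ρ * δ) ∂stdPi K = _))
  set S := fun x : Fin n → Bool => ∑ e : K, s * r e * pairA n x e.1 with hS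
  have hSpos : (0 : ℝ) < ∑ y, exp (S y) := Finset.sum_pos (fun _ _ => exp_pos _) Finset.univ_nonempty
  set w := fun x => exp (S x) / ∑ y, exp (S y) with hw
  have H : SiteHyp w v (β ^ 2 * ((n : ℝ) - 1) / n) (β ^ 2) :=
    ⟨fun x => (div_pos (exp_pos _) hSpos).le, by rw [← Finset.sum_div, div_self hSpos.ne'], hb, by
      rw [div_le_iff₀ hn']; nlinarith [sq_nonneg β]⟩
  have hg : ∀ z x, gibbs n β (T (z, r)) x = w x * exp (lin (v x) z) / tilt w v 1 z := fun z x => by
    have he : ∀ x, β * energy n (T (z, r)) x = S x + lin (v x) z := fun x => by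
      rw [← expo_pair, expo, ← σ.sum_comp, Fintype.sum_sum_type, add_comm]
      congr 1
      · exact Finset.sum_congr rfl fun e _ => by rw [hσr, hTr]
      · exact Finset.sum_congr rfl fun e _ => by rw [hσl, hTl]; simp only [hv]; ring
    simp only [gibbs, he, exp_add, tilt, hw, one_mul, div_mul_eq_mul_div, ← Finset.sum_div]
    field_simp
  have hev : ∀ z, localDef n β ε κ i (T (z, r))
      = siteDef w v R ε (β ^ 2 * ((n : ℝ) - 1) / n * (1 - κ / 2)) z := fun z => by
    have e1 : overlapSq n β (T (z, r))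
        = pairMean (fun x => w x * exp (lin (v x) z) / tilt w v 1 z) R := by
      rw [overlapSq_eq_pairMean]
      simp only [pairMean, hg, hR, hO]
    have e2 : ∑ e : J, s * T (z, r) e.1 * corr n β (T (z, r)) e.1.1.1 e.1.1.2 = siteU w v z := by
      rw [siteU, Finset.sum_div]
      simp only [corr, hg, lin, Finset.mul_sum, Finset.sum_div]
      rw [Finset.sum_comm]
      refine Finset.sum_congr rfl fun x _ => Finset.sum_congr rfl fun e _ => ?_
      rw [hTl]
      simp only [hv, pairA]
      ring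
    rw [localDef, siteDef, e1, e2]
  simp only [hev]
  refine H.site_bound R hR01 hδ hε hκ hκ1 hρ hρ' (by positivity) fun hq => ?_
  have hsd : 0 < √δ := sqrt_pos.2 hδ
  have hpt : ∀ x y, |∑ e, v x e * v y e| ≤ β ^ 2 * ((R x y / √δ + √δ) / 2 + 1 / n) := fun x y => by
    refine (hcross x y).trans (mul_le_mul_of_nonneg_left (add_le_add ?_ le_rfl) (sq_nonneg β))
    have h1 : |O x y| / n = |O x y / n| := by rw [abs_div, abs_of_pos hn']
    have h2 : R x y = |O x y / n| ^ 2 := (sq_abs _).symm
    rw [h1, h2, div_add' _ _ _ hsd.ne', div_div, le_div_iff₀ (by positivity)]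
    nlinarith [sq_nonneg (|O x y / n| - √δ)]
  calc pairMean w (fun x y => |∑ e, v x e * v y e|)
      ≤ pairMean w fun x y => β ^ 2 * ((R x y / √δ + √δ) / 2 + 1 / n) :=
        Finset.sum_le_sum fun x _ => Finset.sum_le_sum fun y _ =>
          mul_le_mul_of_nonneg_left (hpt x y) (mul_nonneg (H.nn x) (H.nn y))
    _ = β ^ 2 * ((pairMean w R / √δ + √δ) / 2 + 1 / n) := by
        have e : ∀ x y, w x * w y * (β ^ 2 * ((R x y / √δ + √δ) / 2 + 1 / n))
            = β ^ 2 / (2 * √δ) * (w x * w y * R x y) + w x * w y * (β ^ 2 * (√δ / 2 + 1 / n)) := fun x y => by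
          ring
        simp only [pairMean, e, Finset.sum_add_distrib, ← Finset.mul_sum, ← Finset.sum_mul, H.sum_one,
          mul_one, one_mul]
        ring
    _ ≤ _ := by
        refine mul_le_mul_of_nonneg_left (add_le_add ?_ le_rfl) (sq_nonneg β)
        have h1 := div_le_div_of_nonneg_right hq hsd.le
        rw [div_sqrt] at h1
        linarith

theorem abs_press_diff_le (n : ℕ) (β β' : ℝ) (g g' : Edge n → ℝ) :
    |(press (pairA n) (fun _ => β' / √n) g - press (pairA n) (fun _ => β / √n) g)
      - (press (pairA n) (fun _ => β' / √n) g' - press (pairA n) (fun _ => β / √n) g')|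
    ≤ (|β'| + |β|) / √n * ∑ e, |g e - g' e| := by
  have h1 := press_le_of_dist (pairA_sq n) (β' / √n) g g'
  have h2 := press_le_of_dist (pairA_sq n) (β / √n) g g'
  rw [abs_div, abs_of_nonneg (sqrt_nonneg _)] at h1 h2
  rw [add_div, add_mul]
  refine le_trans ?_ (add_le_add h1 h2)
  rw [sub_sub_sub_comm]
  exact abs_sub _ _

theorem press_diff_tail (hn : 0 < n) (β β' : ℝ) {t : ℝ} (ht : 0 < t) :
    (stdPi (Edge n)).real {g | (t * n) ^ 2 ≤ ((press (pairA n) (fun _ => β' / √n) g
        - press (pairA n) (fun _ => β / √n) g)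
      - ∫ g', (press (pairA n) (fun _ => β' / √n) g' - press (pairA n) (fun _ => β / √n) g') ∂stdPi (Edge n)) ^ 2}
      ≤ (|β'| + |β|) ^ 2 / (t ^ 2 * n) := by
  have hn' : (0 : ℝ) < n := by exact_mod_cast hn
  have hDm : Measurable fun g => press (pairA n) (fun _ => β' / √n) g - press (pairA n) (fun _ => β / √n) g :=
    (measurable_press _ _).sub (measurable_press _ _)
  have hDL := abs_press_diff_le n β β'
  have h1 := mul_meas_ge_le_integral_of_nonneg
    (f := fun g => ((press (pairA n) (fun _ => β' / √n) g - press (pairA n) (fun _ => β / √n) g)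
      - ∫ g', (press (pairA n) (fun _ => β' / √n) g' - press (pairA n) (fun _ => β / √n) g') ∂stdPi (Edge n)) ^ 2)
    (Eventually.of_forall fun g => sq_nonneg _) ((memLp_lipschitz hDm hDL).sub (memLp_const _)).integrable_sq
    ((t * n) ^ 2)
  have h2 := h1.trans (variance_lipschitz_le hDm hDL)
  have hcard : (Fintype.card (Edge n) : ℝ) ≤ (n : ℝ) ^ 2 := by
    have := Fintype.card_subtype_le fun p : Fin n × Fin n => p.1 < p.2
    simp only [Fintype.card_prod, Fintype.card_fin] at this
    rw [sq]; exact_mod_cast this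
  rw [le_div_iff₀ (by positivity)]
  refine le_of_mul_le_mul_left ?_ hn'
  rw [div_pow, sq_sqrt hn'.le] at h2
  have h3 := h2.trans (mul_le_mul_of_nonneg_right hcard (by positivity))
  calc _ = (t * n) ^ 2 * _ := by ring
    _ ≤ _ := h3
    _ = _ := by field_simp

/-- Below the critical temperature the squared overlap is bounded away from zero with high probability. -/
theorem overlap_tight {β : ℝ} (hβ : 1 < β) {η : ℝ} (hη : 0 < η) :
    ∃ ε > 0, ∃ N₀ : ℕ, ∀ n ≥ N₀, (stdPi (Edge n)).real {g | overlapSq n β g ≤ ε} ≤ η := by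
  obtain ⟨h, hh, c, hc, N₁, hN₁⟩ := free_slope hβ
  have hβ0 : 0 < β := by linarith
  set κ := min 1 (c / 2) with hκ_def
  have hκ : 0 < κ := lt_min one_pos (by positivity)
  set K := exp (2 * β ^ 2) with hK_def
  set τ := η * β ^ 2 * c / 16 with hτ_def
  have hτ : 0 < τ := by positivity
  set ρ' := τ * κ / (16 * K) with hρ'_def
  have hρ' : 0 < ρ' := by positivity
  set ρ := τ / (8 * ((β ^ 2) ^ 2 + 4 * K)) with hρ_def
  have hρ : 0 < ρ := by positivity
  set δ := (τ * ρ' * κ / (4 * K * β ^ 2)) ^ 2 with hδ_def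
  have hδ : 0 < δ := by positivity
  set ε := (τ * ρ * δ / (4 * K)) ^ 2 with hε_def
  have hε : 0 < ε := by positivity
  set t := h * β * c / 4 with ht_def
  have ht : 0 < t := by positivity
  obtain ⟨N₂, hN₂⟩ := exists_nat_gt (max (max 1 (8 / c))
    (max (4 * K * β ^ 2 / (τ * ρ' * κ)) (2 * (|β + h| + |β|) ^ 2 / (η * t ^ 2))))
  refine ⟨ε, hε, max N₁ N₂, fun n hn => ?_⟩
  have hnN : (N₂ : ℝ) ≤ n := by exact_mod_cast le_trans (le_max_right _ _) hn
  simp only [max_lt_iff] at hN₂
  obtain ⟨⟨hn1, hn2⟩, hn3, hn4⟩ := hN₂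
  have hn' : (0 : ℝ) < n := by linarith
  have hn0 : 0 < n := by exact_mod_cast hn'
  set μ := stdPi (Edge n)
  set D := fun g => press (pairA n) (fun _ => (β + h) / √n) g - press (pairA n) (fun _ => β / √n) g
  have hDm : Measurable D := (measurable_press _ _).sub (measurable_press _ _)
  have hI1 := integrable_press (pairA_sq n) fun _ : Edge n => (β + h) / √n
  have hI2 := integrable_press (pairA_sq n) fun _ : Edge n => β / √n
  have hDL := abs_press_diff_le n β (β + h)
  have hm : ∫ g, D g ∂μ ≤ n * (h * (β / 2) * (1 - c)) := by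
    rw [integral_sub hI1 hI2]
    exact hN₁ n (le_trans (le_max_left _ _) hn)
  set A := {g | (t * n) ^ 2 ≤ (D g - ∫ g', D g' ∂μ) ^ 2} with hA_def
  set Φ := fun g => ∑ i, localDef n β ε κ i g
  set B := {g | β ^ 2 * n * c / 8 ≤ Φ g} with hB_def
  have hsub : {g | overlapSq n β g ≤ ε} ⊆ A ∪ B := by
    intro g hg
    have hQ : overlapSq n β g ≤ ε := hg
    by_cases hA : g ∈ A
    · exact Or.inl hA
    refine Or.inr ?_
    simp only [hA_def, Set.mem_setOf_eq, not_le] at hA
    have hDlt : D g < ∫ g', D g' ∂μ + t * n := by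
      have h2 := abs_lt_of_sq_lt_sq hA (by positivity)
      linarith [(abs_lt.1 h2).2]
    have htan := press_tangent (pairA n) ((β + h) / √n) (β / √n) g
    simp only [avg_pair] at htan
    set G := ∑ e : Edge n, g e * corr n β g e.1.1 e.1.2
    have hsG : β / √n * G ≤ β ^ 2 * n / 2 * (1 - c / 2) := by
      have h3 : h / √n * G ≤ h * (β / 2) * n * (1 - c / 2) := by
        have e : (β + h) / √n - β / √n = h / √n := by ring
        rw [e] at htan
        have : h / √n * G ≤ D g := by linarith
        have e2 : h * (β / 2) * n * (1 - c / 2) = n * (h * (β / 2) * (1 - c)) + t * n := by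
          rw [ht_def]; ring
        linarith
      have h4 := mul_le_mul_of_nonneg_left h3 (show 0 ≤ β / h by positivity)
      calc β / √n * G = β / h * (h / √n * G) := by field_simp
        _ ≤ β / h * (h * (β / 2) * n * (1 - c / 2)) := h4
        _ = _ := by field_simp
    have hsum : ∑ i, (β ^ 2 * ((n : ℝ) - 1) / n * (1 - κ / 2)
        - ∑ e : {e : Edge n // incident i e}, β / √n * g e.1 * corr n β g e.1.1.1 e.1.1.2) ≤ Φ g :=
      Finset.sum_le_sum fun i _ => by rw [localDef, if_pos hQ]; exact le_max_right _ _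
    rw [Finset.sum_sub_distrib, sum_sum_incident (fun e => β / √n * g e * corr n β g e.1.1 e.1.2)] at hsum
    simp only [Finset.sum_const, Finset.card_univ, Fintype.card_fin, nsmul_eq_mul, mul_assoc, ← Finset.mul_sum]
      at hsum
    have e3 : (n : ℝ) * (β ^ 2 * ((n : ℝ) - 1) / n * (1 - κ / 2)) = β ^ 2 * (n - 1) * (1 - κ / 2) := by
      field_simp
    rw [e3] at hsum
    have hκc : κ ≤ c / 2 := min_le_right _ _
    have h8 : 8 < c * n := by
      have := lt_of_lt_of_le hn2 hnN
      rw [div_lt_iff₀ hc] at this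
      linarith
    have h9 : β ^ 2 * n * (κ / 2) ≤ β ^ 2 * n * (c / 4) :=
      mul_le_mul_of_nonneg_left (by linarith) (by positivity)
    have h10 : β ^ 2 * 8 ≤ β ^ 2 * (c * n) := mul_le_mul_of_nonneg_left h8.le (sq_nonneg β)
    have h11 : 0 ≤ β ^ 2 * κ / 2 := by positivity
    simp only [hB_def, Set.mem_setOf_eq]
    nlinarith
  have hA : μ.real A ≤ η / 2 := by
    refine (press_diff_tail hn0 β (β + h) ht).trans ?_
    have := lt_of_lt_of_le hn4 hnN
    rw [div_lt_iff₀ (by positivity)] at this
    rw [div_le_iff₀ (by positivity)]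
    linarith
  have hB : μ.real B ≤ η / 2 := by
    have hΦI : Integrable Φ μ := integrable_finsetSum _ fun i _ => integrable_localDef ε κ i
    have h1 := mul_meas_ge_le_integral_of_nonneg (f := Φ)
      (Eventually.of_forall fun g => Finset.sum_nonneg fun i _ => localDef_nonneg ε κ i g) hΦI (β ^ 2 * n * c / 8)
    have hnτ : 4 * K * β ^ 2 / (τ * ρ' * κ) ≤ n := (hn3.trans_le hnN).le
    have hsite : ∀ i, ∫ g, localDef n β ε κ i g ∂μ ≤ τ := fun i => by
      refine (site_integral_le hn0 i hδ hε hκ (min_le_left _ _) hρ hρ').trans ?_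
      have hK0 : K ≠ 0 := (exp_pos _).ne'
      have hC0 : (β ^ 2) ^ 2 + 4 * K ≠ 0 := ne_of_gt (by positivity)
      have hC0' : β ^ 4 + 4 * K ≠ 0 := by rw [show β ^ 4 = (β ^ 2) ^ 2 by ring]; exact hC0
      have hd : √δ = τ * ρ' * κ / (4 * K * β ^ 2) := by rw [hδ_def, sqrt_sq (by positivity)]
      have he : √ε = τ * ρ * δ / (4 * K) := by rw [hε_def, sqrt_sq (by positivity)]
      have a1 : K * (β ^ 2 * √δ / ρ') / κ = τ / 4 := by rw [hd]; field_simp; 
      have a2 : K * (4 * ρ') / κ = τ / 4 := by rw [hρ'_def]; field_simp; ring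
      have a3 : K * (β ^ 2 * (1 / n) / ρ') / κ ≤ τ / 4 := by
        rw [div_le_iff₀ (by positivity)] at hnτ
        rw [show K * (β ^ 2 * (1 / n) / ρ') / κ = K * β ^ 2 / (n * ρ' * κ) by field_simp,
          div_le_iff₀ (by positivity)]
        linarith
      have a4 : ρ * ((β ^ 2) ^ 2 + 4 * K) = τ / 8 := by rw [hρ_def]; field_simp
      have a5 : √ε * K / (2 * ρ * δ) = τ / 8 := by rw [he]; field_simp; ring
      have e : K * (β ^ 2 * (√δ + 1 / n) / ρ' + 4 * ρ') / κ
          = K * (β ^ 2 * √δ / ρ') / κ + K * (β ^ 2 * (1 / n) / ρ') / κ + K * (4 * ρ') / κ := by ring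
      simp only [← hK_def]
      linarith
    have h2 : ∫ g, Φ g ∂μ ≤ n * τ := by
      rw [integral_finsetSum _ fun i _ => integrable_localDef ε κ i]
      refine (Finset.sum_le_sum fun i _ => hsite i).trans (le_of_eq ?_)
      simp
    by_contra hcon
    rw [not_le] at hcon
    have := mul_lt_mul_of_pos_left hcon (show 0 < β ^ 2 * n * c / 8 by positivity)
    rw [hτ_def] at h2
    linarith [h1.trans h2]
  calc μ.real {g | overlapSq n β g ≤ ε} ≤ μ.real (A ∪ B) := measureReal_mono hsub
    _ ≤ μ.real A + μ.real B := measureReal_union_le _ _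
    _ ≤ η := by linarith

end Vale.Agent.P150
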