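import Vale.Agent.P150.Cavity

/-!
# P150: the thermodynamic limit and the averaged squared overlap at every large size
-/

open MeasureTheory ProbabilityTheory Real Filter Topology

namespace Vale.Agent.P150

/-- The Gibbs-averaged squared overlap, averaged over the disorder. -/
noncomputable def meanOverlap (n : ℕ) (β : ℝ) : ℝ := ∫ g, overlapSq n β g ∂stdPi (Edge n)

theorem meanOverlap_mem (n : ℕ) (β : ℝ) : meanOverlap n β ∈ Set.Icc 0 1 := by
  refine ⟨integral_nonneg fun g => (overlapSq_mem n β g).1, ?_⟩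
  refine (integral_mono (integrable_overlapSq n β) (integrable_const (1 : ℝ))
    fun g => (overlapSq_mem n β g).2).trans (by simp)

theorem avg_pair (n : ℕ) (β : ℝ) (g : Edge n → ℝ) (e : Edge n) :
    avg (pairA n) (fun _ => β / √n) g e = corr n β g e.1.1 e.1.2 := by
  simp only [avg, corr, gibbs, expo_pair, Finset.sum_div, pairA, div_mul_eq_mul_div]

theorem sum_avg_pair (n : ℕ) (β : ℝ) :
    ∑ e : Edge n, (1 - ∫ g, avg (pairA n) (fun _ => β / √n) g e ^ 2 ∂stdPi (Edge n))
      = (n : ℝ) ^ 2 / 2 * (1 - meanOverlap n β) := by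
  rcases Nat.eq_zero_or_pos n with rfl | hn
  · simp
  have hi : ∀ e : Edge n, Integrable (fun g => avg (pairA n) (fun _ => β / √n) g e ^ 2) (stdPi (Edge n)) :=
    fun e => Integrable.of_bound ((measurable_avg _ _ e).pow_const 2).aestronglyMeasurable 1
      (Eventually.of_forall fun g => by
        rw [Real.norm_of_nonneg (sq_nonneg _)]; exact avg_sq_le (pairA_sq n) _ g e)
  have hpt : ∀ g, ∑ e : Edge n, (1 - avg (pairA n) (fun _ => β / √n) g e ^ 2)
      = (n : ℝ) ^ 2 / 2 * (1 - overlapSq n β g) := fun g => by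
    simp only [avg_pair]
    have he := sum_edge (fun i j => 1 - corr n β g i j ^ 2) fun i j => by simp [corr, mul_comm]
    have hd : ∀ i, corr n β g i i = 1 := fun i => by simp [corr, spin_mul_self, sum_gibbs]
    simp only [hd, one_pow, sub_self, Finset.sum_const_zero, sub_zero, Finset.sum_sub_distrib,
      Finset.sum_const, Finset.card_univ, Fintype.card_fin, nsmul_eq_mul, mul_one] at he
    rw [overlapSq, Finset.sum_sub_distrib]
    simp only [Finset.sum_const, Finset.card_univ, nsmul_eq_mul, mul_one]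
    have hn' : (n : ℝ) ≠ 0 := by positivity
    field_simp
    linarith
  calc ∑ e : Edge n, (1 - ∫ g, avg (pairA n) (fun _ => β / √n) g e ^ 2 ∂stdPi (Edge n))
      = ∫ g, ∑ e : Edge n, (1 - avg (pairA n) (fun _ => β / √n) g e ^ 2) ∂stdPi (Edge n) := by
        rw [integral_finsetSum _ fun e _ => (integrable_const _).sub' (hi e)]
        refine Finset.sum_congr rfl fun e _ => ?_
        rw [integral_sub (integrable_const _) (hi e)]
        simp
    _ = _ := by
        simp only [hpt]
        rw [integral_const_mul, integral_sub (integrable_const _) (integrable_overlapSq n β)]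
        simp [meanOverlap]

/-- Pointwise tangent inequality for the pressure. -/
theorem press_tangent {κ X : Type*} [Fintype κ] [Fintype X] [Nonempty X] (A : X → κ → ℝ) (γ γ' : ℝ)
    (g : κ → ℝ) :
    press A (fun _ => γ') g + (γ - γ') * ∑ k, g k * avg A (fun _ => γ') g k
      ≤ press A (fun _ => γ) g := by
  have hS := sum_exp_pos A (fun _ => γ') g
  set w := fun x => exp (expo A (fun _ => γ') g x) / ∑ y, exp (expo A (fun _ => γ') g y) with hw_def
  have hw1 : ∑ x, w x = 1 := by rw [← Finset.sum_div, div_self hS.ne']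
  set d := fun x => (γ - γ') * ∑ k, g k * A x k with hd_def
  have hj : exp (∑ x, w x • d x) ≤ ∑ x, w x • exp (d x) :=
    convexOn_exp.map_sum_le (fun x _ => (div_pos (exp_pos _) hS).le) hw1 (fun x _ => Set.mem_univ _)
  have e1 : ∑ x, w x • exp (d x)
      = (∑ x, exp (expo A (fun _ => γ) g x)) / ∑ y, exp (expo A (fun _ => γ') g y) := by
    rw [Finset.sum_div]
    refine Finset.sum_congr rfl fun x _ => ?_
    rw [smul_eq_mul, hw_def, div_mul_eq_mul_div, ← exp_add]
    congr 2
    simp only [hd_def, expo, Finset.mul_sum, ← Finset.sum_add_distrib]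
    exact Finset.sum_congr rfl fun k _ => by ring
  have e2 : ∑ x, w x • d x = (γ - γ') * ∑ k, g k * avg A (fun _ => γ') g k := by
    simp only [smul_eq_mul, hd_def, avg, hw_def, Finset.mul_sum, Finset.sum_div]
    rw [Finset.sum_comm]
    exact Finset.sum_congr rfl fun k _ => Finset.sum_congr rfl fun x _ => by ring
  rw [e1, e2] at hj
  have h2 := log_le_log (exp_pos _) hj
  rw [log_exp, log_div (sum_exp_pos A _ g).ne' hS.ne'] at h2
  rw [press, press]; linarith

/-- The pressure lies above its tangents in the coupling strength. -/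
theorem mean_press_tangent {κ X : Type*} [Fintype κ] [Fintype X] [Nonempty X] {A : X → κ → ℝ}
    (hA : ∀ x k, A x k ^ 2 = 1) (γ γ' : ℝ) :
    (∫ g, press A (fun _ => γ') g ∂stdPi κ)
        + (γ - γ') * γ' * ∑ k, (1 - ∫ g, avg A (fun _ => γ') g k ^ 2 ∂stdPi κ)
      ≤ ∫ g, press A (fun _ => γ) g ∂stdPi κ := by
  have hi : ∀ k, Integrable (fun g => g k * avg A (fun _ => γ') g k) (stdPi κ) := fun k =>
    (integrable_coord k).mul_bdd (measurable_avg A _ k).aestronglyMeasurable
      (Eventually.of_forall fun g => abs_avg_le hA _ g k)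
  have hpt : ∀ g : κ → ℝ, press A (fun _ => γ') g + (γ - γ') * ∑ k, g k * avg A (fun _ => γ') g k
      ≤ press A (fun _ => γ) g := press_tangent A γ γ'
  have hsum : Integrable (fun g => (γ - γ') * ∑ k, g k * avg A (fun _ => γ') g k) (stdPi κ) :=
    (integrable_finsetSum _ fun k _ => hi k).const_mul _
  refine le_trans (le_of_eq ?_) (integral_mono ((integrable_press hA fun _ => γ').add hsum)
    (integrable_press hA fun _ => γ) hpt)
  rw [integral_add' (integrable_press hA fun _ => γ') hsum, integral_const_mul,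
    integral_finsetSum _ fun k _ => hi k]
  simp only [mean_coord_mul_avg hA, ← Finset.mul_sum]
  ring

theorem free_tangent (n : ℕ) (a b : ℝ) :
    free n a + (b - a) * (n * (a / 2 * (1 - meanOverlap n a))) ≤ free n b := by
  refine le_trans (le_of_eq ?_) (mean_press_tangent (pairA_sq n) (b / √n) (a / √n))
  rw [sum_avg_pair]
  rcases Nat.eq_zero_or_pos n with rfl | hn
  · simp [free]
  have hn' : (0 : ℝ) < √n := sqrt_pos.2 (by exact_mod_cast hn)
  have hs : √(n : ℝ) ^ 2 = n := sq_sqrt n.cast_nonneg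
  rw [free]
  congr 1
  field_simp
  rw [hs]
  ring

theorem measurePreserving_right {α γ : Type*} [Fintype α] [Fintype γ] :
    MeasurePreserving (fun g : α ⊕ γ → ℝ => g ∘ Sum.inr) (stdPi (α ⊕ γ)) (stdPi γ) :=
  (measurePreserving_left (α := γ) (γ := α)).comp (measurePreserving_reindex (Equiv.sumComm γ α))

theorem integral_press_comp {α γ X : Type*} [Fintype α] [Fintype γ] [Fintype X] {f : (γ → ℝ) → α → ℝ}
    (hf : MeasurePreserving f (stdPi γ) (stdPi α)) (A : X → α → ℝ) (c : α → ℝ) :
    ∫ g, press A c (f g) ∂stdPi γ = ∫ g, press A c g ∂stdPi α := by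
  rw [← hf.map_eq, integral_map hf.measurable.aemeasurable (measurable_press _ _).aestronglyMeasurable]

theorem block_identity {X : Type*} [Fintype X] (w : X → ℝ) (h1 : ∑ x, w x = 1) (m : ℕ)
    (s : X → Fin m → Bool) :
    2 * ∑ e : Edge m, (1 - (∑ x, w x * pairA m (s x) e) ^ 2)
      = (m : ℝ) ^ 2 - ∑ x, ∑ y, w x * w y * (∑ i, spin (s x i) * spin (s y i)) ^ 2 := by
  have he := sum_edge (fun i j => 1 - (∑ x, w x * (spin (s x i) * spin (s x j))) ^ 2) fun i j => by
    simp only [mul_comm (spin (s _ i))]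
  have hd : ∀ i, ∑ x, w x * (spin (s x i) * spin (s x i)) = 1 := fun i => by simp [spin_mul_self, h1]
  simp only [hd, one_pow, sub_self, Finset.sum_const_zero, sub_zero] at he
  simp only [pairA]
  rw [he, ← (overlap_identity w fun x i => spin (s x i)).1]
  simp [Finset.sum_sub_distrib, sq]

theorem interp_pointwise {a b : ℕ} (ha : 0 < a) (hb : 0 < b) (w : (Fin (a + b) → Bool) → ℝ)
    (hw : ∀ x, 0 ≤ w x) (h1 : ∑ x, w x = 1) :
    (∑ e : Edge a, (1 - (∑ x, w x * pairA a (fun i => x (Fin.castAdd b i)) e) ^ 2)) / a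
        + (∑ e : Edge b, (1 - (∑ x, w x * pairA b (fun i => x (Fin.natAdd a i)) e) ^ 2)) / b
      ≤ (∑ e : Edge (a + b), (1 - (∑ x, w x * pairA (a + b) x e) ^ 2)) / ((a + b : ℕ) : ℝ) := by
  have ha' : (0 : ℝ) < a := by exact_mod_cast ha
  have hb' : (0 : ℝ) < b := by exact_mod_cast hb
  have Pn := block_identity w h1 (a + b) fun x => x
  have Pa := block_identity w h1 a fun x i => x (Fin.castAdd b i)
  have Pb := block_identity w h1 b fun x i => x (Fin.natAdd a i)
  have hconv : (∑ x, ∑ y, w x * w y * (∑ i, spin (x i) * spin (y i)) ^ 2) / ((a + b : ℕ) : ℝ)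
      ≤ (∑ x, ∑ y, w x * w y
            * (∑ i : Fin a, spin (x (Fin.castAdd b i)) * spin (y (Fin.castAdd b i))) ^ 2) / a
        + (∑ x, ∑ y, w x * w y
            * (∑ i : Fin b, spin (x (Fin.natAdd a i)) * spin (y (Fin.natAdd a i))) ^ 2) / b := by
    simp only [Finset.sum_div, ← Finset.sum_add_distrib]
    refine Finset.sum_le_sum fun x _ => Finset.sum_le_sum fun y _ => ?_
    simp only [mul_div_assoc, ← mul_add]
    refine mul_le_mul_of_nonneg_left ?_ (mul_nonneg (hw x) (hw y))
    rw [Fin.sum_univ_add, Nat.cast_add, div_add_div _ _ ha'.ne' hb'.ne',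
      div_le_div_iff₀ (by linarith) (by positivity)]
    nlinarith [sq_nonneg ((b : ℝ) * (∑ i, spin (x (Fin.castAdd b i)) * spin (y (Fin.castAdd b i)))
      - a * ∑ i, spin (x (Fin.natAdd a i)) * spin (y (Fin.natAdd a i)))]
  have e : ∀ m : ℝ, 0 < m → m ^ 2 / m = m := fun m hm => by field_simp
  have q : ∀ P S m : ℝ, 0 < m → 2 * P = m ^ 2 - S → P / m = (m - S / m) / 2 := fun P S m hm h => by
    rw [show P = (m ^ 2 - S) / 2 by linarith, div_right_comm, sub_div, e m hm]
  rw [q _ _ _ ha' Pa, q _ _ _ hb' Pb, q _ _ _ (by push_cast; linarith) Pn]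
  push_cast at hconv ⊢
  linarith

theorem free_superadd {β : ℝ} (a b : ℕ) : free a β + free b β ≤ free (a + b) β := by
  rcases Nat.eq_zero_or_pos a with rfl | ha
  · rw [show free 0 β = 0 by simp [free, press, expo], zero_add, Nat.zero_add]
  rcases Nat.eq_zero_or_pos b with rfl | hb
  · rw [show free 0 β = 0 by simp [free, press, expo], add_zero, Nat.add_zero]
  set n := a + b with hn_def
  have ha' : (0 : ℝ) < a := by exact_mod_cast ha
  have hb' : (0 : ℝ) < b := by exact_mod_cast hb
  have hn' : (0 : ℝ) < n := by simp only [hn_def, Nat.cast_add]; linarith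
  set A : (Fin n → Bool) → (Edge a ⊕ Edge b) ⊕ Edge n → ℝ := fun x =>
    Sum.elim (Sum.elim (pairA a fun i => x (Fin.castAdd b i)) (pairA b fun i => x (Fin.natAdd a i))) (pairA n x)
    with hA_def
  have hA : ∀ x k, A x k ^ 2 = 1 := by
    rintro x ((e | e) | e) <;> simp only [hA_def, Sum.elim_inl, Sum.elim_inr] <;> exact pairA_sq _ _ _
  set c : ℝ → (Edge a ⊕ Edge b) ⊕ Edge n → ℝ := fun θ =>
    Sum.elim (Sum.elim (fun _ => β / √a * cos θ) fun _ => β / √b * cos θ) fun _ => β / √n * sin θ with hc_def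
  set c' : ℝ → (Edge a ⊕ Edge b) ⊕ Edge n → ℝ := fun θ =>
    Sum.elim (Sum.elim (fun _ => -(β / √a * sin θ)) fun _ => -(β / √b * sin θ)) fun _ => β / √n * cos θ
    with hc'_def
  have hc : ∀ θ k, HasDerivAt (c · k) (c' θ k) θ := by
    rintro θ ((e | e) | e)
    · simpa [hc_def, hc'_def] using (hasDerivAt_cos θ).const_mul (β / √a)
    · simpa [hc_def, hc'_def] using (hasDerivAt_cos θ).const_mul (β / √b)
    · simpa [hc_def, hc'_def] using (hasDerivAt_sin θ).const_mul (β / √n)
  have hB : ∀ θ k, |c' θ k| ≤ |β / √a| + |β / √b| + |β / √n| := by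
    have l : ∀ u v : ℝ, |v| ≤ 1 → |u * v| ≤ |u| := fun u v h => by
      rw [abs_mul]; exact mul_le_of_le_one_right (abs_nonneg _) h
    rintro θ ((e | e) | e) <;> simp only [hc'_def, Sum.elim_inl, Sum.elim_inr, abs_neg]
    · linarith [l (β / √a) _ (abs_sin_le_one θ), abs_nonneg (β / √b), abs_nonneg (β / √n)]
    · linarith [l (β / √b) _ (abs_sin_le_one θ), abs_nonneg (β / √a), abs_nonneg (β / √n)]
    · linarith [l (β / √n) _ (abs_cos_le_one θ), abs_nonneg (β / √a), abs_nonneg (β / √b)]
  set ψ := fun θ => ∫ g, press A (c θ) g ∂stdPi ((Edge a ⊕ Edge b) ⊕ Edge n) with hψ_def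
  have hψ := fun θ => hasDerivAt_mean_press hA hc hB θ
  have hpos : ∀ θ, 0 ≤ sin θ → 0 ≤ cos θ →
      0 ≤ ∑ k, c' θ k * c θ k * (1 - ∫ g, avg A (c θ) g k ^ 2 ∂stdPi ((Edge a ⊕ Edge b) ⊕ Edge n)) := by
    intro θ hs hco
    have hi : ∀ k, Integrable (fun g => avg A (c θ) g k ^ 2) (stdPi ((Edge a ⊕ Edge b) ⊕ Edge n)) := fun k =>
      Integrable.of_bound ((measurable_avg A _ k).pow_const 2).aestronglyMeasurable 1
        (Eventually.of_forall fun g => by rw [Real.norm_of_nonneg (sq_nonneg _)]; exact avg_sq_le hA _ g k)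
    have e : ∀ k, c' θ k * c θ k * (1 - ∫ g, avg A (c θ) g k ^ 2 ∂stdPi ((Edge a ⊕ Edge b) ⊕ Edge n))
        = ∫ g, c' θ k * c θ k * (1 - avg A (c θ) g k ^ 2) ∂stdPi ((Edge a ⊕ Edge b) ⊕ Edge n) := fun k => by
      rw [integral_const_mul, integral_sub (integrable_const _) (hi k)]; simp
    simp_rw [e]
    rw [← integral_finsetSum _ fun k _ => ((integrable_const _).sub' (hi k)).const_mul _]
    refine integral_nonneg fun g => ?_
    set w : (Fin n → Bool) → ℝ := fun x => exp (expo A (c θ) g x) / ∑ y, exp (expo A (c θ) g y) with hw_def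
    have hw : ∀ x, 0 ≤ w x := fun x => div_nonneg (exp_pos _).le (sum_exp_pos _ _ _).le
    have h1 : ∑ x, w x = 1 := by rw [← Finset.sum_div, div_self (sum_exp_pos _ _ _).ne']
    have avg_eq : ∀ k, avg A (c θ) g k = ∑ x, w x * A x k := fun k => by
      rw [avg, Finset.sum_div]; exact Finset.sum_congr rfl fun x _ => by simp only [hw_def]; ring
    have hp := interp_pointwise ha hb w hw h1
    simp only [avg_eq]
    simp only [Fintype.sum_sum_type, hA_def, hc_def, hc'_def, Sum.elim_inl, Sum.elim_inr, ← Finset.mul_sum]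
    have key := mul_le_mul_of_nonneg_left hp (show 0 ≤ β ^ 2 * (sin θ * cos θ) by positivity)
    have hk : ∀ m : ℕ, ∀ u v : ℝ, β / √m * u * (β / √m * v) = β ^ 2 * (u * v) / m := fun m u v => by
      rw [mul_mul_mul_comm, div_mul_div_comm, mul_self_sqrt m.cast_nonneg]; ring
    simp only [neg_mul, hk]
    rw [← sub_nonneg] at key
    refine key.trans (le_of_eq ?_)
    simp only [hn_def]
    ring
  have hmono : MonotoneOn ψ (Set.Icc 0 (π / 2)) := by
    refine monotoneOn_of_deriv_nonneg (convex_Icc _ _) (fun z _ => (hψ z).continuousAt.continuousWithinAt)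
      (fun z _ => (hψ z).differentiableAt.differentiableWithinAt) fun z hz => ?_
    rw [(hψ z).deriv]
    rw [interior_Icc] at hz
    exact hpos z (sin_nonneg_of_nonneg_of_le_pi hz.1.le (by linarith [hz.2, pi_pos]))
      (cos_nonneg_of_mem_Icc ⟨by linarith [hz.1, pi_pos], hz.2.le⟩)
  have key := hmono (Set.left_mem_Icc.2 (by positivity)) (Set.right_mem_Icc.2 (by positivity)) (by positivity)
  have hend : ψ (π / 2) = free n β := by
    rw [free, ← integral_press_comp (measurePreserving_right (α := Edge a ⊕ Edge b) (γ := Edge n))]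
    refine integral_congr_ae (Eventually.of_forall fun g => ?_)
    simp [press, expo, hA_def, hc_def, Fintype.sum_sum_type]
  have hstart : ψ 0 = free a β + free b β := by
    have mpa := (measurePreserving_left (α := Edge a) (γ := Edge b)).comp
      (measurePreserving_left (α := Edge a ⊕ Edge b) (γ := Edge n))
    have mpb := (measurePreserving_right (α := Edge a) (γ := Edge b)).comp
      (measurePreserving_left (α := Edge a ⊕ Edge b) (γ := Edge n))
    rw [free, free, ← integral_press_comp mpa, ← integral_press_comp mpb, ← integral_add]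
    · refine integral_congr_ae (Eventually.of_forall fun g => ?_)
      simp only [press, Function.comp_apply]
      rw [← log_mul (sum_exp_pos _ _ _).ne' (sum_exp_pos _ _ _).ne', Finset.sum_mul_sum]
      congr 1
      rw [← (Fin.appendEquiv a b).sum_comp, Fintype.sum_prod_type]
      refine Finset.sum_congr rfl fun x _ => Finset.sum_congr rfl fun y _ => ?_
      rw [← exp_add]
      congr 1
      simp [expo, hA_def, hc_def, Fintype.sum_sum_type, Fin.appendEquiv]
    · exact mpa.integrable_comp_of_integrable (integrable_press (pairA_sq a) _)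
    · exact mpb.integrable_comp_of_integrable (integrable_press (pairA_sq b) _)
  linarith

theorem exists_limit (β : ℝ) : ∃ F, Tendsto (fun n : ℕ => free n β / n) atTop (𝓝 F) := by
  have hsub : Subadditive fun n => -free n β := fun m k => by
    have := free_superadd (β := β) m k
    linarith
  have hb : BddBelow (Set.range fun n : ℕ => -free n β / n) := by
    refine ⟨-(log 2 + β ^ 2 / 4), ?_⟩
    rintro _ ⟨n, rfl⟩
    rcases Nat.eq_zero_or_pos n with rfl | hn
    · simp only [CharP.cast_eq_zero, div_zero, Left.neg_nonpos_iff]; positivity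
    · have hn' : (0 : ℝ) < n := by exact_mod_cast hn
      have := guerra n β 0 le_rfl
      simp only [mul_zero, zero_div, sub_zero, ne_eq, OfNat.ofNat_ne_zero, not_false_eq_true, zero_pow,
        add_zero, one_pow, mul_one] at this
      rw [le_div_iff₀ hn']
      linarith
  refine ⟨-hsub.lim, ((hsub.tendsto_lim hb).neg).congr fun n => ?_⟩
  ring

theorem cavityConst_pos {β : ℝ} (hβ : β ≠ 0) : 0 < cavityConst β := by
  have := cosh_pos (β ^ 2 / 2)
  rw [cavityConst]; positivity

theorem cavityConst_mono {a b : ℝ} (ha : 0 ≤ a) (hab : a ≤ b) : cavityConst a ≤ cavityConst b := by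
  have hc : cosh (a ^ 2 / 2) ≤ cosh (b ^ 2 / 2) := by
    rw [cosh_le_cosh, abs_of_nonneg (by positivity), abs_of_nonneg (by positivity)]
    nlinarith
  have := (cosh_pos (a ^ 2 / 2)).le
  unfold cavityConst
  gcongr

/-- Below the critical temperature the free energy grows strictly slower than the annealed one. -/
theorem free_slope {β : ℝ} (hβ : 1 < β) : ∃ h > 0, ∃ c > 0, ∃ N₀ : ℕ, ∀ n ≥ N₀,
    free n (β + h) - free n β ≤ n * (h * (β / 2) * (1 - c)) := by
  set c₀ := deficit β ^ 2 / (2 * cavityConst (β + 1))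
  have hc₀ : 0 < c₀ := div_pos (pow_pos (deficit_pos hβ) 2)
    (mul_pos two_pos (cavityConst_pos (by linarith)))
  set h := min 1 (β * c₀ / 4) with hh_def
  have hh : 0 < h := lt_min one_pos (by positivity)
  set b := β + h with hb_def
  have hb1 : 1 < b := by linarith
  have hbb : b ≤ β + 1 := by linarith [min_le_left 1 (β * c₀ / 4)]
  have hcb : c₀ ≤ deficit b ^ 2 / (2 * cavityConst b) :=
    div_le_div₀ (sq_nonneg _) (pow_le_pow_left₀ (deficit_pos hβ).le (deficit_mono hβ (by linarith)) 2)
      (mul_pos two_pos (cavityConst_pos (by linarith)))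
      (mul_le_mul_of_nonneg_left (cavityConst_mono (by linarith) hbb) two_pos.le)
  obtain ⟨N₁, hN₁⟩ := overlap_sum_ge hb1
  obtain ⟨Fb, hFb⟩ := exists_limit b
  obtain ⟨Fa, hFa⟩ := exists_limit β
  set d := fun n : ℕ => free n b / n - free n β / n with hd_def
  have hd : Tendsto d atTop (𝓝 (Fb - Fa)) := hFb.sub hFa
  have hup : ∀ m : ℕ, d m ≤ h * (b / 2) * (1 - meanOverlap m b) := fun m => by
    rcases Nat.eq_zero_or_pos m with rfl | hm
    · simp only [hd_def, CharP.cast_eq_zero, div_zero, sub_zero]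
      exact mul_nonneg (by positivity) (sub_nonneg.2 (meanOverlap_mem 0 b).2)
    · have hm' : (0 : ℝ) < m := by exact_mod_cast hm
      have := free_tangent m b β
      simp only [hd_def]
      rw [← sub_div, div_le_iff₀ hm']
      rw [show β - b = -h by rw [hb_def]; ring] at this
      linarith
  have hD : Fb - Fa ≤ h * (b / 2) * (1 - c₀) := by
    refine le_of_tendsto hd.cesaro (eventually_atTop.2 ⟨max N₁ 1, fun N hN => ?_⟩)
    have hN' : (0 : ℝ) < N := by exact_mod_cast lt_of_lt_of_le one_pos (le_trans (le_max_right _ _) hN)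
    have h1 := hN₁ N (le_trans (le_max_left _ _) hN)
    have h2 : ∑ m ∈ Finset.range N, d m ≤ h * (b / 2) * (N - ∑ m ∈ Finset.range N, meanOverlap m b) := by
      refine (Finset.sum_le_sum fun m _ => hup m).trans (le_of_eq ?_)
      rw [← Finset.mul_sum, Finset.sum_sub_distrib]
      simp
    have h3 : c₀ * N ≤ ∑ m ∈ Finset.range N, meanOverlap m b :=
      le_trans (mul_le_mul_of_nonneg_right hcb hN'.le) h1
    have h4 : h * (b / 2) * (N - ∑ m ∈ Finset.range N, meanOverlap m b) ≤ h * (b / 2) * (N - c₀ * N) :=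
      mul_le_mul_of_nonneg_left (by linarith) (by positivity)
    rw [inv_mul_le_iff₀ hN']
    linarith
  obtain ⟨N₂, hN₂⟩ := eventually_atTop.1 (hd.eventually (gt_mem_nhds
    (show Fb - Fa < Fb - Fa + h * β * c₀ / 8 by linarith [show 0 < h * β * c₀ / 8 by positivity])))
  refine ⟨h, hh, c₀ / 2, by positivity, max N₂ 1, fun n hn => ?_⟩
  have hn' : (0 : ℝ) < n := by exact_mod_cast lt_of_lt_of_le one_pos (le_trans (le_max_right _ _) hn)
  have hdn := hN₂ n (le_trans (le_max_left _ _) hn)
  simp only [hd_def] at hdn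
  rw [← sub_div, div_lt_iff₀ hn'] at hdn
  have hh4 : h ≤ β * c₀ / 4 := min_le_right _ _
  have h5 : h * b * (1 - c₀) ≤ h * (β - β * c₀ + h) := by
    rw [hb_def]
    nlinarith [mul_nonneg (mul_pos hh hh).le hc₀.le]
  have h6 : Fb - Fa + h * β * c₀ / 8 ≤ h * (β / 2) * (1 - c₀ / 2) := by
    nlinarith [mul_le_mul_of_nonneg_left hh4 hh.le]
  nlinarith [mul_le_mul_of_nonneg_left h6 hn'.le]

end Vale.Agent.P150
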