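import Vale.Agent.P150.Conc

/-!
# P150: at one site, a small overlap forces the annealed value of the local energy
-/

open MeasureTheory ProbabilityTheory Real Filter

namespace Vale.Agent.P150

variable {X J : Type*} [Fintype X] [Fintype J]

/-- A linear form. -/
noncomputable def lin (u z : J → ℝ) : ℝ := ∑ e, u e * z e

/-- The tilted normalising constant. -/
noncomputable def tilt (w : X → ℝ) (v : X → J → ℝ) (l : ℝ) (z : J → ℝ) : ℝ :=
  ∑ x, w x * exp (l * lin (v x) z)

/-- The tilted mean of the linear form. -/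
noncomputable def siteU (w : X → ℝ) (v : X → J → ℝ) (z : J → ℝ) : ℝ :=
  (∑ x, w x * exp (lin (v x) z) * lin (v x) z) / tilt w v 1 z

/-- A two-replica average. -/
noncomputable def pairMean (w : X → ℝ) (R : X → X → ℝ) : ℝ := ∑ x, ∑ y, w x * w y * R x y

/-- The energy deficit at a site on the event of small overlap. -/
noncomputable def siteDef (w : X → ℝ) (v : X → J → ℝ) (R : X → X → ℝ) (ε a : ℝ) (z : J → ℝ) : ℝ :=
  if pairMean (fun x => w x * exp (lin (v x) z) / tilt w v 1 z) R ≤ ε then max 0 (a - siteU w v z) else 0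

theorem integral_exp_lin (u : J → ℝ) : ∫ z, exp (lin u z) ∂stdPi J = exp ((∑ e, u e ^ 2) / 2) :=
  integral_exp_dot u

theorem integrable_exp_lin (u : J → ℝ) : Integrable (fun z => exp (lin u z)) (stdPi J) :=
  integrable_exp_dot u

theorem lin_smul (s : ℝ) (u z : J → ℝ) : lin (fun e => s * u e) z = s * lin u z := by
  simp [lin, Finset.mul_sum, mul_assoc]

theorem lin_add (u u' z : J → ℝ) : lin (fun e => u e + u' e) z = lin u z + lin u' z := by
  simp [lin, add_mul, Finset.sum_add_distrib]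

theorem exp_sub_one_le (u : ℝ) : exp u - 1 ≤ |u| * exp |u| := by
  rcases le_or_gt 0 u with h | h
  · rw [abs_of_nonneg h]
    have h1 := add_one_le_exp (-u)
    rw [exp_neg] at h1
    have h2 := mul_le_mul_of_nonneg_left h1 (exp_pos u).le
    rw [mul_inv_cancel₀ (exp_pos u).ne'] at h2
    nlinarith
  · have : exp u ≤ 1 := exp_le_one_iff.2 h.le
    nlinarith [mul_nonneg (abs_nonneg u) (exp_pos |u|).le]

theorem sq_le_exp_add (u : ℝ) : u ^ 2 ≤ 2 * (exp u + exp (-u)) := by
  have h := quadratic_le_exp_of_nonneg (abs_nonneg u)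
  rw [sq_abs] at h
  have h2 : exp |u| ≤ exp u + exp (-u) := by
    rcases abs_choice u with e | e <;> rw [e] <;> linarith [exp_pos u, exp_pos (-u)]
  linarith [abs_nonneg u]

/-- The common hypotheses on a site. -/
structure SiteHyp (w : X → ℝ) (v : X → J → ℝ) (b B : ℝ) : Prop where
  nn : ∀ x, 0 ≤ w x
  sum_one : ∑ x, w x = 1
  norm_sq : ∀ x, ∑ e, v x e ^ 2 = b
  le_B : b ≤ B

variable {w : X → ℝ} {v : X → J → ℝ} {b B : ℝ}

theorem SiteHyp.b_nonneg (h : SiteHyp w v b B) : 0 ≤ b := by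
  have : b = ∑ x, w x * ∑ e, v x e ^ 2 := by simp [h.norm_sq, ← Finset.sum_mul, h.sum_one]
  rw [this]
  exact Finset.sum_nonneg fun x _ => mul_nonneg (h.nn x) (Finset.sum_nonneg fun e _ => sq_nonneg _)

theorem SiteHyp.tilt_ge (h : SiteHyp w v b B) (l : ℝ) (z : J → ℝ) :
    exp (l * lin (fun e => ∑ x, w x * v x e) z) ≤ tilt w v l z := by
  have hj : exp (∑ x, w x • (l * lin (v x) z)) ≤ ∑ x, w x • exp (l * lin (v x) z) :=
    convexOn_exp.map_sum_le (fun x _ => h.nn x) h.sum_one fun x _ => Set.mem_univ _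
  refine le_trans (le_of_eq ?_) hj
  congr 1
  simp only [lin, smul_eq_mul, Finset.sum_mul, Finset.mul_sum]
  rw [Finset.sum_comm]
  exact Finset.sum_congr rfl fun x _ => Finset.sum_congr rfl fun e _ => by ring

theorem SiteHyp.tilt_pos (h : SiteHyp w v b B) (l : ℝ) (z : J → ℝ) : 0 < tilt w v l z :=
  (exp_pos _).trans_le (h.tilt_ge l z)

theorem SiteHyp.integral_exp_mean (h : SiteHyp w v b B) (s : ℝ) :
    Integrable (fun z => exp (s * lin (fun e => ∑ x, w x * v x e) z)) (stdPi J) ∧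
      ∫ z, exp (s * lin (fun e => ∑ x, w x * v x e) z) ∂stdPi J ≤ exp (s ^ 2 * B / 2) := by
  simp only [← lin_smul]
  refine ⟨integrable_exp_lin _, ?_⟩
  rw [integral_exp_lin, exp_le_exp]
  have hm : ∑ e, (∑ x, w x * v x e) ^ 2 ≤ b := by
    have hj : ∀ e, (∑ x, w x * v x e) ^ 2 ≤ ∑ x, w x * v x e ^ 2 := fun e => by
      have h2 := (Even.convexOn_pow (n := 2) (even_two) : ConvexOn ℝ Set.univ fun x : ℝ => x ^ 2).map_sum_le
        (t := Finset.univ) (w := w) (p := fun x => v x e) (fun x _ => h.nn x) h.sum_one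
        fun x _ => Set.mem_univ _
      simpa using h2
    calc ∑ e, (∑ x, w x * v x e) ^ 2 ≤ ∑ e, ∑ x, w x * v x e ^ 2 := Finset.sum_le_sum fun e _ => hj e
      _ = b := by rw [Finset.sum_comm]; simp [← Finset.mul_sum, h.norm_sq, ← Finset.sum_mul, h.sum_one]
  simp only [mul_pow, ← Finset.mul_sum]
  have := mul_le_mul_of_nonneg_left (hm.trans h.le_B) (sq_nonneg s)
  linarith

theorem SiteHyp.integral_tilt (h : SiteHyp w v b B) (l : ℝ) :
    Integrable (tilt w v l) (stdPi J) ∧ ∫ z, tilt w v l z ∂stdPi J = exp (l ^ 2 * b / 2) := by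
  have hi : ∀ x, Integrable (fun z => w x * exp (l * lin (v x) z)) (stdPi J) := fun x => by
    simp only [← lin_smul]; exact (integrable_exp_lin _).const_mul _
  refine ⟨integrable_finsetSum _ fun x _ => hi x, ?_⟩
  unfold tilt
  rw [integral_finsetSum _ fun x _ => hi x]
  simp only [integral_const_mul, ← lin_smul, integral_exp_lin, mul_pow, ← Finset.mul_sum, h.norm_sq]
  rw [← Finset.sum_mul, h.sum_one, one_mul]

theorem SiteHyp.integral_tilt_sq (h : SiteHyp w v b B) (l : ℝ) :
    Integrable (fun z => tilt w v l z ^ 2) (stdPi J) ∧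
      ∫ z, tilt w v l z ^ 2 ∂stdPi J = pairMean w fun x y => exp (l ^ 2 * (b + ∑ e, v x e * v y e)) := by
  have e : ∀ z, tilt w v l z ^ 2 = ∑ x, ∑ y, w x * w y * exp (lin (fun e => l * v x e + l * v y e) z) :=
    fun z => by
      rw [sq, tilt, Finset.sum_mul_sum]
      refine Finset.sum_congr rfl fun x _ => Finset.sum_congr rfl fun y _ => ?_
      rw [lin_add, lin_smul, lin_smul, exp_add]; ring
  simp only [e]
  have hi : ∀ x y, Integrable (fun z => w x * w y * exp (lin (fun e => l * v x e + l * v y e) z)) (stdPi J) :=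
    fun x y => (integrable_exp_lin _).const_mul _
  refine ⟨integrable_finsetSum _ fun x _ => integrable_finsetSum _ fun y _ => hi x y, ?_⟩
  rw [integral_finsetSum _ fun x _ => integrable_finsetSum _ fun y _ => hi x y]
  refine Finset.sum_congr rfl fun x _ => ?_
  rw [integral_finsetSum _ fun y _ => hi x y]
  refine Finset.sum_congr rfl fun y _ => ?_
  rw [integral_const_mul, integral_exp_lin]
  congr 2
  have : ∀ e, (l * v x e + l * v y e) ^ 2 = l ^ 2 * v x e ^ 2 + l ^ 2 * v y e ^ 2 + 2 * l ^ 2 * (v x e * v y e) :=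
    fun e => by ring
  simp only [this, Finset.sum_add_distrib, ← Finset.mul_sum, h.norm_sq]
  ring

theorem SiteHyp.abs_cross_le (h : SiteHyp w v b B) (x y : X) : |∑ e, v x e * v y e| ≤ b := by
  calc |∑ e, v x e * v y e| ≤ ∑ e, |v x e * v y e| := Finset.abs_sum_le_sum_abs _ _
    _ ≤ ∑ e, (v x e ^ 2 + v y e ^ 2) / 2 := Finset.sum_le_sum fun e _ => by
        rw [abs_mul, ← sq_abs (v x e), ← sq_abs (v y e)]
        nlinarith [sq_nonneg (|v x e| - |v y e|)]
    _ = b := by rw [← Finset.sum_div, Finset.sum_add_distrib, h.norm_sq, h.norm_sq]; ring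

theorem SiteHyp.tilt_sq_le (h : SiteHyp w v b B) {l : ℝ} (hl : l ^ 2 ≤ 1) :
    ∫ z, tilt w v l z ^ 2 ∂stdPi J ≤ exp (2 * B) := by
  rw [(h.integral_tilt_sq l).2]
  calc pairMean w (fun x y => exp (l ^ 2 * (b + ∑ e, v x e * v y e)))
      ≤ ∑ x, ∑ y, w x * w y * exp (2 * B) := by
        refine Finset.sum_le_sum fun x _ => Finset.sum_le_sum fun y _ =>
          mul_le_mul_of_nonneg_left (exp_le_exp.2 ?_) (mul_nonneg (h.nn x) (h.nn y))
        nlinarith [(abs_le.1 (h.abs_cross_le x y)).1, (abs_le.1 (h.abs_cross_le x y)).2, h.le_B, sq_nonneg l]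
    _ = exp (2 * B) := by simp [← Finset.sum_mul, ← Finset.mul_sum, h.sum_one]

/-- The majorant of `|log Y_l - l² b / 2|`. -/
noncomputable def errBd (w : X → ℝ) (v : X → J → ℝ) (b ρ l : ℝ) (z : J → ℝ) : ℝ :=
  (tilt w v l z - exp (l ^ 2 * b / 2)) ^ 2 / (2 * ρ)
    + ρ * (exp (-(2 * l) * lin (fun e => ∑ x, w x * v x e) z) + 1)

theorem SiteHyp.abs_log_tilt_le (h : SiteHyp w v b B) {ρ : ℝ} (hρ : 0 < ρ) (l : ℝ) (z : J → ℝ) :
    |log (tilt w v l z) - l ^ 2 * b / 2| ≤ errBd w v b ρ l z := by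
  set Y := tilt w v l z with hY_def
  set a := exp (l ^ 2 * b / 2) with ha_def
  set m := exp (-(l * lin (fun e => ∑ x, w x * v x e) z))
  have hY : 0 < Y := h.tilt_pos l z
  have ha : 1 ≤ a := one_le_exp (by have := h.b_nonneg; positivity)
  have hm : 1 / Y ≤ m := by
    rw [one_div_le hY (exp_pos _), one_div, ← exp_neg, neg_neg]
    exact h.tilt_ge l z
  have hla : l ^ 2 * b / 2 = log a := (log_exp _).symm
  have h1 : |log Y - l ^ 2 * b / 2| ≤ |Y - a| * (m + 1) := by
    rw [hla, ← log_div hY.ne' (by linarith)]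
    have u1 := log_le_sub_one_of_pos (div_pos hY (lt_of_lt_of_le one_pos ha))
    have u2 := log_le_sub_one_of_pos (div_pos (lt_of_lt_of_le one_pos ha) hY)
    rw [← inv_div Y a, log_inv, inv_div] at u2
    rw [div_sub_one (by linarith : a ≠ 0)] at u1
    rw [div_sub_one hY.ne'] at u2
    have v1 : (Y - a) / a ≤ |Y - a| * (m + 1) := by
      refine (le_abs_self _).trans ?_
      rw [abs_div, abs_of_pos (lt_of_lt_of_le one_pos ha)]
      refine (div_le_self (abs_nonneg _) ha).trans (le_mul_of_one_le_right (abs_nonneg _) ?_)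
      linarith [exp_pos (-(l * lin (fun e => ∑ x, w x * v x e) z))]
    have v2 : (a - Y) / Y ≤ |Y - a| * (m + 1) := by
      refine (le_abs_self _).trans ?_
      rw [abs_div, abs_of_pos hY, abs_sub_comm, div_eq_mul_one_div]
      exact mul_le_mul_of_nonneg_left (hm.trans (le_add_of_nonneg_right zero_le_one)) (abs_nonneg _)
    rw [abs_le]
    constructor <;> linarith
  have hm2 : m ^ 2 = exp (-(2 * l) * lin (fun e => ∑ x, w x * v x e) z) := by
    rw [← exp_nat_mul]; congr 1; push_cast; ring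
  refine h1.trans ?_
  rw [errBd, ← hY_def, ← ha_def, ← hm2, ← sub_nonneg]
  have e : (Y - a) ^ 2 / (2 * ρ) + ρ * (m ^ 2 + 1) - |Y - a| * (m + 1)
      = ((|Y - a| - ρ * (m + 1)) ^ 2 + ρ ^ 2 * (m - 1) ^ 2) / (2 * ρ) := by
    field_simp
    rw [← sq_abs (Y - a)]
    ring
  rw [e]
  positivity

theorem SiteHyp.integral_errBd (h : SiteHyp w v b B) {ρ : ℝ} (hρ : 0 < ρ) {l : ℝ} (hl : l ^ 2 ≤ 1) :
    Integrable (errBd w v b ρ l) (stdPi J) ∧ ∫ z, errBd w v b ρ l z ∂stdPi J
      ≤ exp (2 * B) * (pairMean w (fun x y => |∑ e, v x e * v y e|) / (2 * ρ) + 2 * ρ) := by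
  have hb := h.b_nonneg
  set a := exp (l ^ 2 * b / 2)
  obtain ⟨hi1, he1⟩ := h.integral_tilt l
  obtain ⟨hi2, he2⟩ := h.integral_tilt_sq l
  obtain ⟨hi3, he3⟩ := h.integral_exp_mean (-(2 * l))
  have hsq : ∀ z, (tilt w v l z - a) ^ 2 = tilt w v l z ^ 2 + ((-(2 * a)) * tilt w v l z + a ^ 2) := fun z => by ring
  have hiL : Integrable (fun z => -(2 * a) * tilt w v l z + a ^ 2) (stdPi J) :=
    (hi1.const_mul _).add (integrable_const _)
  have hi4 : Integrable (fun z => (tilt w v l z - a) ^ 2) (stdPi J) :=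
    (hi2.add hiL).congr (Eventually.of_forall fun z => (hsq z).symm)
  have h4 : ∫ z, (tilt w v l z - a) ^ 2 ∂stdPi J
      ≤ exp (2 * B) * pairMean w (fun x y => |∑ e, v x e * v y e|) := by
    simp only [hsq]
    rw [integral_add hi2 hiL, integral_add (hi1.const_mul _) (integrable_const _), integral_const_mul, he1, he2]
    simp only [integral_const, probReal_univ, smul_eq_mul, one_mul]
    have e : pairMean w (fun x y => exp (l ^ 2 * (b + ∑ e, v x e * v y e))) + (-(2 * a) * a + a ^ 2)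
        = pairMean w fun x y => a ^ 2 * (exp (l ^ 2 * ∑ e, v x e * v y e) - 1) := by
      have e2 : a ^ 2 = exp (l ^ 2 * b) := by
        rw [← exp_nat_mul]; congr 1; push_cast; ring
      have e3 : pairMean w (fun _ _ => a ^ 2) = a ^ 2 := by
        simp [pairMean, ← Finset.sum_mul, ← Finset.mul_sum, h.sum_one]
      rw [show -(2 * a) * a + a ^ 2 = -pairMean w (fun _ _ => a ^ 2) by rw [e3]; ring]
      simp only [pairMean, ← sub_eq_add_neg, ← Finset.sum_sub_distrib, mul_add, exp_add, ← e2]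
      exact Finset.sum_congr rfl fun x _ => Finset.sum_congr rfl fun y _ => by ring
    rw [e]
    rw [pairMean, pairMean, Finset.mul_sum]
    refine Finset.sum_le_sum fun x _ => ?_
    rw [Finset.mul_sum]
    refine Finset.sum_le_sum fun y _ => ?_
    rw [mul_left_comm (exp (2 * B))]
    refine mul_le_mul_of_nonneg_left ?_ (mul_nonneg (h.nn x) (h.nn y))
    set r := ∑ e, v x e * v y e
    have hr : |l ^ 2 * r| ≤ |r| := by
      rw [abs_mul, abs_of_nonneg (sq_nonneg l)]; exact mul_le_of_le_one_left (abs_nonneg _) hl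
    have h5 : exp (l ^ 2 * r) - 1 ≤ |r| * exp b :=
      (exp_sub_one_le _).trans (mul_le_mul hr (exp_le_exp.2 (hr.trans (h.abs_cross_le x y)))
        (exp_pos _).le (abs_nonneg _))
    calc a ^ 2 * (exp (l ^ 2 * r) - 1) ≤ a ^ 2 * (|r| * exp b) := mul_le_mul_of_nonneg_left h5 (sq_nonneg a)
      _ = exp (l ^ 2 * b + b) * |r| := by
          rw [exp_add, ← exp_nat_mul]; push_cast
          rw [show 2 * (l ^ 2 * b / 2) = l ^ 2 * b by ring]; ring
      _ ≤ exp (2 * B) * |r| :=
          mul_le_mul_of_nonneg_right (exp_le_exp.2 (by nlinarith [h.le_B])) (abs_nonneg _)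
  have h6 : exp ((-(2 * l)) ^ 2 * B / 2) ≤ exp (2 * B) := by
    refine exp_le_exp.2 ?_
    nlinarith [mul_le_mul_of_nonneg_right hl (hb.trans h.le_B)]
  have hi5 : Integrable (fun z => ρ * (exp (-(2 * l) * lin (fun e => ∑ x, w x * v x e) z) + 1)) (stdPi J) :=
    (hi3.add (integrable_const _)).const_mul _
  refine ⟨(hi4.div_const _).add hi5, ?_⟩
  unfold errBd
  rw [integral_add (hi4.div_const _) hi5, integral_div, integral_const_mul,
    integral_add hi3 (integrable_const _)]
  simp only [integral_const, probReal_univ, smul_eq_mul, one_mul]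
  have h7 := div_le_div_of_nonneg_right h4 (show 0 ≤ 2 * ρ by positivity)
  have h8 : (1 : ℝ) ≤ exp (2 * B) := one_le_exp (by linarith [hb.trans h.le_B])
  rw [mul_add (exp (2 * B)), mul_div_assoc']
  nlinarith [mul_le_mul_of_nonneg_left (he3.trans h6) hρ.le]

theorem SiteHyp.log_tilt_ge (h : SiteHyp w v b B) (l : ℝ) (z : J → ℝ) :
    log (tilt w v 1 z) + (l - 1) * siteU w v z ≤ log (tilt w v l z) := by
  have hY := h.tilt_pos 1 z
  set μ := fun x => w x * exp (lin (v x) z) / tilt w v 1 z with hμ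
  have hμ1 : ∑ x, μ x = 1 := by
    rw [← Finset.sum_div, div_eq_one_iff_eq hY.ne']; simp [tilt]
  have hj : exp (∑ x, μ x • ((l - 1) * lin (v x) z)) ≤ ∑ x, μ x • exp ((l - 1) * lin (v x) z) :=
    convexOn_exp.map_sum_le (fun x _ => div_nonneg (mul_nonneg (h.nn x) (exp_pos _).le) hY.le) hμ1
      fun x _ => Set.mem_univ _
  have e1 : ∑ x, μ x • exp ((l - 1) * lin (v x) z) = tilt w v l z / tilt w v 1 z := by
    rw [tilt, Finset.sum_div]
    refine Finset.sum_congr rfl fun x _ => ?_
    rw [hμ, smul_eq_mul, div_mul_eq_mul_div, mul_assoc, ← exp_add]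
    ring_nf
  have e2 : ∑ x, μ x • ((l - 1) * lin (v x) z) = (l - 1) * siteU w v z := by
    rw [siteU, Finset.sum_div, Finset.mul_sum]
    exact Finset.sum_congr rfl fun x _ => by rw [hμ, smul_eq_mul]; ring
  rw [e1, e2] at hj
  have := log_le_log (exp_pos _) hj
  rw [log_exp, log_div (h.tilt_pos l z).ne' hY.ne'] at this
  linarith

theorem measurable_siteDef (w : X → ℝ) (v : X → J → ℝ) (R : X → X → ℝ) (ε a : ℝ) :
    Measurable (siteDef w v R ε a) := by
  unfold siteDef pairMean siteU tilt lin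
  refine Measurable.ite (measurableSet_le (by fun_prop) measurable_const) (by fun_prop) measurable_const

/-- The deficit of the local energy is small in mean on the event of small overlap. -/
theorem SiteHyp.site_bound (h : SiteHyp w v b B) (R : X → X → ℝ) (hR : ∀ x y, R x y ∈ Set.Icc (0 : ℝ) 1)
    {δ ε κ ρ ρ' D : ℝ} (hδ : 0 < δ) (hε : 0 < ε) (hκ : 0 < κ) (hκ1 : κ ≤ 1) (hρ : 0 < ρ) (hρ' : 0 < ρ')
    (hD0 : 0 ≤ D) (hD : pairMean w R ≤ δ → pairMean w (fun x y => |∑ e, v x e * v y e|) ≤ D) :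
    ∫ z, siteDef w v R ε (b * (1 - κ / 2)) z ∂stdPi J
      ≤ exp (2 * B) * (D / ρ' + 4 * ρ') / κ + ρ * (B ^ 2 + 4 * exp (2 * B))
        + √ε * exp (2 * B) / (2 * ρ * δ) := by
  classical
  have hb := h.b_nonneg
  have hB := hb.trans h.le_B
  set mz := fun z => lin (fun e => ∑ x, w x * v x e) z
  set c : ℝ := if pairMean w R ≤ δ then 1 / κ else 0 with hc_def
  set M := fun z => c * (errBd w v b ρ' 1 z + errBd w v b ρ' (1 - κ) z)
    + (ρ * (B ^ 2 + 2 * (exp (1 * mz z) + exp ((-1) * mz z)))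
      + √ε / (4 * ρ * δ) * (tilt w v 1 z ^ 2 + tilt w v (-1) z ^ 2)) with hM_def
  have hl : (1 - κ) ^ 2 ≤ 1 := by nlinarith
  obtain ⟨ia, ea⟩ := h.integral_errBd hρ' (show (1 : ℝ) ^ 2 ≤ 1 by norm_num)
  obtain ⟨ib, eb⟩ := h.integral_errBd hρ' hl
  obtain ⟨ic, ec⟩ := h.integral_exp_mean 1
  obtain ⟨id', ed⟩ := h.integral_exp_mean (-1)
  have ie := (h.integral_tilt_sq 1).1
  have ig := (h.integral_tilt_sq (-1)).1
  have ee := h.tilt_sq_le (show (1 : ℝ) ^ 2 ≤ 1 by norm_num)
  have eg := h.tilt_sq_le (show (-1 : ℝ) ^ 2 ≤ 1 by norm_num)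
  have j1 : Integrable (fun z => c * (errBd w v b ρ' 1 z + errBd w v b ρ' (1 - κ) z)) (stdPi J) :=
    (ia.add ib).const_mul c
  have j2' : Integrable (fun z => B ^ 2 + 2 * (exp (1 * mz z) + exp ((-1) * mz z))) (stdPi J) :=
    (integrable_const _).add ((ic.add id').const_mul 2)
  have j2 : Integrable (fun z => ρ * (B ^ 2 + 2 * (exp (1 * mz z) + exp ((-1) * mz z)))) (stdPi J) :=
    j2'.const_mul ρ
  have j3 : Integrable (fun z => √ε / (4 * ρ * δ) * (tilt w v 1 z ^ 2 + tilt w v (-1) z ^ 2)) (stdPi J) :=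
    (ie.add ig).const_mul _
  have j23 : Integrable (fun z => ρ * (B ^ 2 + 2 * (exp (1 * mz z) + exp ((-1) * mz z)))
      + √ε / (4 * ρ * δ) * (tilt w v 1 z ^ 2 + tilt w v (-1) z ^ 2)) (stdPi J) := j2.add j3
  have hMI : Integrable M (stdPi J) := j1.add j23
  have hc0 : 0 ≤ c := by rw [hc_def]; split_ifs <;> positivity
  have hpt : ∀ z, siteDef w v R ε (b * (1 - κ / 2)) z ≤ M z := by
    intro z
    have g1 := h.abs_log_tilt_le hρ' 1 z
    have g2 := h.abs_log_tilt_le hρ' (1 - κ) z
    have p1 := (abs_nonneg _).trans g1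
    have p2 := (abs_nonneg _).trans g2
    rw [siteDef]
    split_ifs with hT
    swap
    · simp only [hM_def]; positivity
    set U := siteU w v z
    set φ := max 0 (b * (1 - κ / 2) - U) with hφ_def
    have hφ2 : φ ^ 2 ≤ 2 * (B ^ 2 + 2 * (exp (1 * mz z) + exp ((-1) * mz z))) := by
      have hU : mz z ≤ U := by
        have h0 := h.log_tilt_ge 0 z
        have h1 := log_le_log (exp_pos _) (h.tilt_ge 1 z)
        simp only [log_exp, tilt, zero_mul, exp_zero, mul_one, h.sum_one, log_one] at h0 h1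
        simp only [mz]
        linarith
      have h2 : φ ≤ B + |mz z| :=
        max_le (by positivity) (by nlinarith [neg_abs_le (mz z), h.le_B, mul_nonneg hb hκ.le])
      have h3 := pow_le_pow_left₀ (le_max_left _ _) h2 2
      have h4 := sq_le_exp_add (mz z)
      rw [← hφ_def] at h3
      rw [one_mul, neg_one_mul]
      nlinarith [sq_nonneg (B - |mz z|), sq_abs (mz z)]
    by_cases hq : pairMean w R ≤ δ
    · have hφ : φ ≤ c * (errBd w v b ρ' 1 z + errBd w v b ρ' (1 - κ) z) := by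
        rw [hc_def, if_pos hq, div_mul_eq_mul_div, one_mul, le_div_iff₀ hκ, hφ_def, max_mul_of_nonneg _ _ hκ.le]
        refine max_le (by linarith) ?_
        have := h.log_tilt_ge (1 - κ) z
        have := (abs_le.1 g1).1
        have := (abs_le.1 g2).2
        nlinarith
      refine hφ.trans (le_add_of_nonneg_right ?_)
      positivity
    · have hbad : 1 ≤ √ε / (2 * δ) * (tilt w v 1 z ^ 2 + tilt w v (-1) z ^ 2) := by
        set T := pairMean (fun x => w x * exp (lin (v x) z) / tilt w v 1 z) R with hT_def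
        have hY := h.tilt_pos 1 z
        have hse : 0 < √ε := sqrt_pos.2 hε
        have key : pairMean w R ≤ (T * tilt w v 1 z ^ 2 / √ε + √ε * tilt w v (-1) z ^ 2) / 2 := by
          have e1 : T * tilt w v 1 z ^ 2
              = ∑ x, ∑ y, w x * w y * (exp (lin (v x) z) * exp (lin (v y) z) * R x y) := by
            simp only [hT_def, pairMean, Finset.sum_mul]
            refine Finset.sum_congr rfl fun x _ => Finset.sum_congr rfl fun y _ => ?_
            field_simp
          have e2 : tilt w v (-1) z ^ 2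
              = ∑ x, ∑ y, w x * w y * ((exp (lin (v x) z) * exp (lin (v y) z))⁻¹) := by
            rw [sq, tilt, Finset.sum_mul_sum]
            refine Finset.sum_congr rfl fun x _ => Finset.sum_congr rfl fun y _ => ?_
            rw [mul_inv, ← exp_neg, ← exp_neg, neg_one_mul, neg_one_mul]; ring
          rw [e1, e2]
          simp only [pairMean, Finset.sum_div, Finset.mul_sum, ← Finset.sum_add_distrib]
          refine Finset.sum_le_sum fun x _ => Finset.sum_le_sum fun y _ => ?_
          set W := exp (lin (v x) z) * exp (lin (v y) z) with hW_def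
          have hW : 0 < W := by positivity
          obtain ⟨r0, r1⟩ := hR x y
          have hh : R x y ≤ (W * R x y / √ε + √ε * W⁻¹) / 2 := by
            have hd : (W * R x y / √ε + √ε * W⁻¹) / 2 - R x y
                = (R x y * (W - √ε) ^ 2 + (√ε) ^ 2 * (1 - R x y)) / (2 * (√ε * W)) := by
              field_simp; ring
            have : 0 ≤ (R x y * (W - √ε) ^ 2 + (√ε) ^ 2 * (1 - R x y)) / (2 * (√ε * W)) :=
              div_nonneg (add_nonneg (mul_nonneg r0 (sq_nonneg _)) (mul_nonneg (sq_nonneg _) (by linarith)))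
                (by positivity)
            linarith
          have := mul_le_mul_of_nonneg_left hh (mul_nonneg (h.nn x) (h.nn y))
          refine this.trans (le_of_eq ?_)
          ring
        have h2 : T * tilt w v 1 z ^ 2 / √ε ≤ √ε * tilt w v 1 z ^ 2 := by
          rw [div_le_iff₀ hse]
          calc T * tilt w v 1 z ^ 2 ≤ ε * tilt w v 1 z ^ 2 := mul_le_mul_of_nonneg_right hT (sq_nonneg _)
            _ = _ := by rw [mul_right_comm, mul_self_sqrt hε.le]
        rw [div_mul_eq_mul_div, one_le_div (by positivity)]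
        linarith [not_le.1 hq]
      have hφ : φ ≤ ρ * φ ^ 2 / 2 + 1 / (2 * ρ) := by
        have : 0 ≤ (ρ * φ - 1) ^ 2 / (2 * ρ) := by positivity
        have e : (ρ * φ - 1) ^ 2 / (2 * ρ) = ρ * φ ^ 2 / 2 + 1 / (2 * ρ) - φ := by field_simp; ring
        linarith
      have h3 : 1 / (2 * ρ) ≤ √ε / (4 * ρ * δ) * (tilt w v 1 z ^ 2 + tilt w v (-1) z ^ 2) := by
        calc 1 / (2 * ρ) = 1 / (2 * ρ) * 1 := (mul_one _).symm
          _ ≤ 1 / (2 * ρ) * (√ε / (2 * δ) * (tilt w v 1 z ^ 2 + tilt w v (-1) z ^ 2)) :=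
              mul_le_mul_of_nonneg_left hbad (by positivity)
          _ = _ := by field_simp; ring
      have h4 := mul_le_mul_of_nonneg_left hφ2 hρ.le
      refine le_trans (by linarith) (le_add_of_nonneg_left (mul_nonneg hc0 (by linarith)))
  have h0 : ∀ z, 0 ≤ siteDef w v R ε (b * (1 - κ / 2)) z := fun z => by
    rw [siteDef]; split_ifs <;> simp
  refine (integral_mono (hMI.mono' (measurable_siteDef _ _ _ _ _).aestronglyMeasurable
    (Eventually.of_forall fun z => by rw [Real.norm_of_nonneg (h0 z)]; exact hpt z)) hMI hpt).trans ?_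
  have jexp : Integrable (fun z => 2 * (exp (1 * mz z) + exp ((-1) * mz z))) (stdPi J) :=
    (ic.add id').const_mul 2
  simp only [hM_def]
  rw [integral_add j1 j23, integral_add j2 j3, integral_const_mul, integral_const_mul, integral_const_mul,
    integral_add ia ib, integral_add (integrable_const _) jexp, integral_const_mul,
    integral_add ic id', integral_add ie ig]
  simp only [integral_const, probReal_univ, smul_eq_mul, one_mul]
  have hexp : exp ((1 : ℝ) ^ 2 * B / 2) ≤ exp (2 * B) := exp_le_exp.2 (by linarith)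
  have hexp' : exp ((-1 : ℝ) ^ 2 * B / 2) ≤ exp (2 * B) := exp_le_exp.2 (by linarith)
  simp only [mz, neg_one_mul, one_mul] at ec ed ⊢
  have t1 : c * (∫ z, errBd w v b ρ' 1 z ∂stdPi J + ∫ z, errBd w v b ρ' (1 - κ) z ∂stdPi J)
      ≤ exp (2 * B) * (D / ρ' + 4 * ρ') / κ := by
    rw [hc_def]
    split_ifs with hq
    · rw [div_mul_eq_mul_div, one_mul]
      refine div_le_div_of_nonneg_right ((add_le_add ea eb).trans ?_) hκ.le
      have := div_le_div_of_nonneg_right (hD hq) (show 0 ≤ 2 * ρ' by positivity)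
      have e : D / ρ' = D / (2 * ρ') + D / (2 * ρ') := by field_simp; ring
      rw [e]
      nlinarith [exp_pos (2 * B)]
    · rw [zero_mul]; positivity
  have t2 : ρ * (B ^ 2 + 2 * (∫ z, exp (lin (fun e => ∑ x, w x * v x e) z) ∂stdPi J
      + ∫ z, exp (-lin (fun e => ∑ x, w x * v x e) z) ∂stdPi J)) ≤ ρ * (B ^ 2 + 4 * exp (2 * B)) :=
    mul_le_mul_of_nonneg_left (by linarith) hρ.le
  have t3 : √ε / (4 * ρ * δ) * (∫ z, tilt w v 1 z ^ 2 ∂stdPi J + ∫ z, tilt w v (-1) z ^ 2 ∂stdPi J)
      ≤ √ε * exp (2 * B) / (2 * ρ * δ) := by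
    refine (mul_le_mul_of_nonneg_left (add_le_add ee eg) (by positivity)).trans (le_of_eq ?_)
    field_simp; ring
  linarith

end Vale.Agent.P150
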